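import Vale.Agent.P284.H279.K.DDQ

/-!
# P284 (helper279), module K10: the form `|s|^{2/k} φ ∧ φ̄ ∧ w^{n-R-1}` of a section and a morphism
-/

open scoped Manifold ContDiff Topology ComplexOrder ComplexConjugate Matrix
open Filter Set MeasureTheory

noncomputable section

namespace Vale.Agent.P284.H279.K

open Vale.Agent.P272.K Vale.Agent.P272.K.INT Vale.Agent.P272.KOD Vale.Agent.P284.H206.Bog
  Vale.Agent.P284.H248 Vale.Agent.P284.H608.K

variable {n R : ℕ} {X : Type} [TopologicalSpace X] [ChartedSpace (Cm n) X]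
  {L : LineBundle n X} {k : ℕ} {w : Chart n X → Cm n → Matrix (Fin n) (Fin n) ℂ}

/-- an index at a point -/
def ixx (L : LineBundle n X) (z : X) : L.ι := Classical.choose (L.cover z)

theorem ixx_mem (L : LineBundle n X) (z : X) : z ∈ L.U (ixx L z) :=
  Classical.choose_spec (L.cover z)

/-- the weight `|s|^{2/k}` -/
def wtt (s : Sec L k) (i : L.ι) (z : X) : ℝ := (‖s.f i z‖ ^ 2) ^ ((k : ℝ)⁻¹)

theorem wtt_nonneg (s : Sec L k) (i : L.ι) (z : X) : 0 ≤ wtt s i z :=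
  Real.rpow_nonneg (by positivity) _

theorem wtt_glue (hk : k ≠ 0) (s : Sec L k) {i i' : L.ι} {z : X} (hi : z ∈ L.U i)
    (hi' : z ∈ L.U i') : wtt s i z = ‖L.g i i' z‖ ^ 2 * wtt s i' z := by
  unfold wtt
  rw [s.change i i' z hi hi', norm_mul, norm_pow, mul_pow, ← pow_mul, mul_comm k 2, pow_mul,
    Real.mul_rpow (by positivity) (by positivity), Real.pow_rpow_inv_natCast (by positivity) hk]

/-- the coefficient matrix of the form -/
def AK (hp : R + 1 ≤ n) (w : Chart n X → Cm n → Matrix (Fin n) (Fin n) ℂ) (s : Sec L k)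
    (φ : Mor L R) (c : Chart n X) (ζ : Cm n) : Matrix (Fin n) (Fin n) ℂ :=
  ((wtt s (ixx L (c.symm ζ)) (c.symm ζ) : ℝ) : ℂ) •
    QA hp (w c ζ) (toAf (φ.form (ixx L (c.symm ζ)) c ζ))

theorem AK_eq (hp : R + 1 ≤ n) (hk : k ≠ 0) (s : Sec L k) (φ : Mor L R) {c : Chart n X} {z : X}
    (hz : At c z) {i : L.ι} (hi : z ∈ L.U i) : AK hp w s φ c (c z) =
      ((wtt s i z : ℝ) : ℂ) • QA hp (w c (c z)) (toAf (φ.form i c (c z))) := by
  unfold AK
  rw [hz.left_inv]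
  have hj := ixx_mem L z
  rw [wtt_glue hk s hi hj, φ.glue i (ixx L z) c z hz hi hj, toAf_smul, QA_smul, smul_smul]
  congr 1
  push_cast
  ring

theorem AK_ev (hp : R + 1 ≤ n) (hk : k ≠ 0) (s : Sec L k) (φ : Mor L R) {c : Chart n X} {z : X}
    (hz : At c z) {i : L.ι} (hi : z ∈ L.U i) : AK hp w s φ c =ᶠ[𝓝 (c z)] fun ζ =>
      ((wtt s i (c.symm ζ) : ℝ) : ℂ) • QA hp (w c ζ) (toAf (φ.form i c ζ)) := by
  filter_upwards [ev_U hz (L.isOpen i) hi] with ζ hζ
  have := AK_eq (w := w) hp hk s φ hζ.2.1 hζ.2.2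
  rwa [c.right_inv hζ.1] at this

theorem toMatrix_jac [IsManifold 𝓘(ℂ, Cm n) ω X] {e e' : Chart n X} {x : X} (hx : At e x)
    (hx' : At e' x) : LinearMap.toMatrix'
      ((fderiv ℂ (fun z => e' (e.symm z)) (e x) : Cm n →L[ℂ] Cm n) : Cm n →ₗ[ℂ] Cm n) =
      jacM e e' x := by
  ext p i
  rw [jacM_eq, jmat_apply (transition_differentiableAt hx hx'), LinearMap.toMatrix'_apply]
  rfl

theorem bij_jac [IsManifold 𝓘(ℂ, Cm n) ω X] {e e' : Chart n X} {x : X} (hx : At e x)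
    (hx' : At e' x) : Function.Bijective (fderiv ℂ (fun z => e' (e.symm z)) (e x)) := by
  have h0 : ((fderiv ℂ (fun z => e' (e.symm z)) (e x) : Cm n →L[ℂ] Cm n) : Cm n →ₗ[ℂ] Cm n) =
      Matrix.toLin' (jacM e e' x) := by
    rw [← toMatrix_jac hx hx', Matrix.toLin'_toMatrix']
  have hu := jacM_isUnit hx hx'
  have h1 : Function.Bijective (Matrix.toLin' (jacM e e' x)) := by
    refine ⟨fun a b hab => ?_, fun y => ⟨(jacM e e' x)⁻¹ *ᵥ y, ?_⟩⟩
    · have h2 : (jacM e e' x)⁻¹ *ᵥ (jacM e e' x *ᵥ a) = (jacM e e' x)⁻¹ *ᵥ (jacM e e' x *ᵥ b) :=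
        congrArg (fun y => (jacM e e' x)⁻¹ *ᵥ y) hab
      rwa [Matrix.mulVec_mulVec, Matrix.mulVec_mulVec, Matrix.nonsing_inv_mul _ hu,
        Matrix.one_mulVec, Matrix.one_mulVec] at h2
    · rw [Matrix.toLin'_apply, Matrix.mulVec_mulVec, Matrix.mul_nonsing_inv _ hu, Matrix.one_mulVec]
  rw [← h0] at h1
  exact h1

theorem AK_change [IsManifold 𝓘(ℂ, Cm n) ω X] (k1 : K1Stmt) (hw : IsKahler w) (hp : R + 1 ≤ n)
    (hk : k ≠ 0) (s : Sec L k) (φ : Mor L R)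
    (c c' : Chart n X) (z : X) (hz : At c z) (hz' : At c' z) :
    jacM c c' z * AK hp w s φ c (c z) * (jacM c c' z)ᴴ =
      ((‖(jacM c c' z).det‖ ^ 2 : ℝ) : ℂ) • AK hp w s φ c' (c' z) := by
  obtain ⟨i, hi⟩ := L.cover z
  rw [AK_eq hp hk s φ hz hi, AK_eq hp hk s φ hz' hi, Matrix.mul_smul, Matrix.smul_mul,
    smul_comm _ (((wtt s i z : ℝ) : ℂ))]
  congr 1
  have h1 := toMatrix_jac hz hz'
  have h2 := QA_change k1 hp (hw.posDef c' z hz')
    (fderiv ℂ (fun y => c' (c.symm y)) (c z)) (bij_jac hz hz') (toAf (φ.form i c' (c' z))) (by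
      rw [h1, ← hw.change c c' z hz hz']
      exact hw.posDef c z hz)
  rw [h1, ← hw.change c c' z hz hz'] at h2
  rw [← h2, φ.change i c c' z hz hz' hi]
  rfl

theorem wtt_smooth (s : Sec L k) {c : Chart n X} {z : X} (hz : At c z)
    {i : L.ι} (hi : z ∈ L.U i) (h0 : s.f i z ≠ 0) :
    ContDiffAt ℝ ∞ (fun ζ => wtt s i (c.symm ζ)) (c z) := by
  unfold wtt
  have h1 : ContDiffAt ℝ ∞ (fun ζ => s.f i (c.symm ζ)) (c z) :=
    ((s.holo i c z hz hi).restrict_scalars ℝ).of_le (by exact le_top)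
  refine ContDiffAt.rpow_const_of_ne (h1.norm_sq ℝ) ?_
  rw [hz.left_inv]
  positivity

theorem wtt_cont (hk : k ≠ 0) (s : Sec L k) {c : Chart n X} {z : X} (hz : At c z)
    {i : L.ι} (hi : z ∈ L.U i) :
    ContinuousAt (fun ζ => wtt s i (c.symm ζ)) (c z) := by
  unfold wtt
  have h1 : ContinuousAt (fun ζ => s.f i (c.symm ζ)) (c z) := (s.holo i c z hz hi).continuousAt
  exact (h1.norm.pow 2).rpow_const (Or.inr (by positivity))

theorem QAφ_smooth (hw : IsKahler w) (hp : R + 1 ≤ n) (φ : Mor L R) {c : Chart n X} {z : X}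
    (hz : At c z) {i : L.ι} (hi : z ∈ L.U i) (a b : Fin n) :
    ContDiffAt ℝ ∞ (fun ζ => QA hp (w c ζ) (toAf (φ.form i c ζ)) a b) (c z) :=
  QA_smooth hp (hw.smooth c z hz) (fun _ =>
    ((φ.holo i c z hz hi _).restrict_scalars ℝ).of_le (by exact le_top)) a b

theorem AK_smooth (hw : IsKahler w) (hp : R + 1 ≤ n) (hk : k ≠ 0) (s : Sec L k) (φ : Mor L R)
    {c : Chart n X} {z : X} (hz : At c z) {i : L.ι} (hi : z ∈ L.U i) (h0 : s.f i z ≠ 0)
    (a b : Fin n) : ContDiffAt ℝ ∞ (fun ζ => AK hp w s φ c ζ a b) (c z) := by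
  have h1 : (fun ζ => AK hp w s φ c ζ a b) =ᶠ[𝓝 (c z)] fun ζ =>
      ((wtt s i (c.symm ζ) : ℝ) : ℂ) * QA hp (w c ζ) (toAf (φ.form i c ζ)) a b := by
    filter_upwards [AK_ev hp hk s φ hz hi] with ζ hζ
    rw [hζ, Matrix.smul_apply, smul_eq_mul]
  refine ContDiffAt.congr_of_eventuallyEq ?_ h1
  exact (Complex.ofRealCLM.contDiff.contDiffAt.comp (c z) (wtt_smooth s hz hi h0)).mul
    (QAφ_smooth hw hp φ hz hi a b)

theorem AK_cont (hw : IsKahler w) (hp : R + 1 ≤ n) (hk : k ≠ 0) (s : Sec L k) (φ : Mor L R)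
    {c : Chart n X} {z : X} (hz : At c z) (a b : Fin n) :
    ContinuousAt (fun ζ => AK hp w s φ c ζ a b) (c z) := by
  obtain ⟨i, hi⟩ := L.cover z
  have h1 : (fun ζ => AK hp w s φ c ζ a b) =ᶠ[𝓝 (c z)] fun ζ =>
      ((wtt s i (c.symm ζ) : ℝ) : ℂ) * QA hp (w c ζ) (toAf (φ.form i c ζ)) a b := by
    filter_upwards [AK_ev hp hk s φ hz hi] with ζ hζ
    rw [hζ, Matrix.smul_apply, smul_eq_mul]
  refine ContinuousAt.congr ?_ h1.symm
  exact (Complex.continuous_ofReal.continuousAt.comp (wtt_cont hk s hz hi)).mul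
    (QAφ_smooth hw hp φ hz hi a b).continuousAt

theorem AK_psd (k1 : K1Stmt) (hw : IsKahler w) (hp : R + 1 ≤ n) (s : Sec L k)
    (φ : Mor L R) {c : Chart n X} {z : X} (hz : At c z) :
    (AK hp w s φ c (c z)).PosSemidef := by
  unfold AK
  exact (QA_psd k1 hp (hw.posDef c z hz) _).smul (by
    rw [hz.left_inv]
    exact_mod_cast wtt_nonneg s _ z)

/-! ### the bound -/

section
variable [IsManifold 𝓘(ℂ, Cm n) ω X]

/-- the norm of the form -/
def NK (hp : R + 1 ≤ n) (w : Chart n X → Cm n → Matrix (Fin n) (Fin n) ℂ) (s : Sec L k)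
    (φ : Mor L R) (z : X) : ℝ :=
  (pr (AK hp w s φ (chartAt (Cm n) z) (chartAt (Cm n) z z))
    (w (chartAt (Cm n) z) (chartAt (Cm n) z z))).re / dk w (chartAt (Cm n) z) (chartAt (Cm n) z z)

theorem NK_eq (k1 : K1Stmt) (hw : IsKahler w) (hp : R + 1 ≤ n) (hk : k ≠ 0) (s : Sec L k)
    (φ : Mor L R) {c : Chart n X} {z : X} (hz : At c z) :
    NK hp w s φ z = (pr (AK hp w s φ c (c z)) (w c (c z))).re / dk w c (c z) := by
  have hz' : At (chartAt (Cm n) z) z := ⟨chart_mem_atlas _ _, mem_chart_source _ _⟩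
  have h1 := AK_change k1 hw hp hk s φ _ _ z hz' hz
  have h3 := pr_change h1 (hw.change _ _ z hz' hz)
  have h4 := (dk_density hw).change _ _ z hz' hz
  have hd := jacM_det_ne_zero hz' hz
  have hd' : (‖(jacM (chartAt (Cm n) z) c z).det‖ ^ 2 : ℝ) ≠ 0 := by positivity
  rw [NK, h3, h4, Complex.re_ofReal_mul, mul_comm (dk w c (c z)), mul_div_mul_left _ _ hd']

theorem NK_cont (k1 : K1Stmt) (hw : IsKahler w) (hp : R + 1 ≤ n) (hk : k ≠ 0) (s : Sec L k)
    (φ : Mor L R) : Continuous (NK hp w s φ) := by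
  rw [continuous_iff_continuousAt]
  intro z
  set c := chartAt (Cm n) z with hc
  have hz : At c z := ⟨chart_mem_atlas _ _, mem_chart_source _ _⟩
  have h1 : ContinuousAt (fun ζ => (pr (AK hp w s φ c ζ) (w c ζ)).re / dk w c ζ) (c z) := by
    refine ContinuousAt.div ?_ ((dk_density hw).cont c z hz) (dk_pos hw hz).ne'
    refine Complex.continuous_re.continuousAt.comp ?_
    unfold pr
    exact tendsto_finsetSum _ fun a _ => tendsto_finsetSum _ fun b _ =>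
      (AK_cont hw hp hk s φ hz a b).mul (hw.smooth c z hz a b).continuousAt
  have h2 : ContinuousAt (fun y => (pr (AK hp w s φ c (c y)) (w c (c y))).re / dk w c (c y)) z :=
    h1.comp (f := c) (c.continuousAt hz.2)
  refine h2.congr ?_
  filter_upwards [c.open_source.mem_nhds hz.2] with y hy
  exact (NK_eq k1 hw hp hk s φ ⟨hz.1, hy⟩).symm

theorem NK_bdd [CompactSpace X] (k1 : K1Stmt) (hw : IsKahler w) (hp : R + 1 ≤ n) (hk : k ≠ 0)
    (s : Sec L k) (φ : Mor L R) : ∃ C : ℝ, 0 ≤ C ∧ ∀ (e : Chart n X) x, At e x →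
      (pr (AK hp w s φ e (e x)) (w e (e x))).re ≤ C * dk w e (e x) := by
  obtain ⟨C, hC⟩ := isCompact_univ.exists_bound_of_continuousOn
    (NK_cont k1 hw hp hk s φ).continuousOn
  refine ⟨max C 0, le_max_right _ _, fun e x hx => ?_⟩
  have h1 := hC x (mem_univ x)
  rw [NK_eq k1 hw hp hk s φ hx] at h1
  have h2 := (le_abs_self _).trans (h1.trans (le_max_left C 0))
  rwa [div_le_iff₀ (dk_pos hw hx)] at h2

/-! ### the double divergence -/

omit [IsManifold 𝓘(ℂ, Cm n) ω X] in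
theorem KOn_of (hw : IsKahler w) {c : Chart n X} (hc : c ∈ atlas (Cm n) X) :
    KOn c.target (w c) where
  sm z hz j k := by
    have := hw.smooth c (c.symm z) ⟨hc, c.map_target hz⟩ j k
    rwa [c.right_inv hz] at this
  pos z hz := by
    have := hw.posDef c (c.symm z) ⟨hc, c.map_target hz⟩
    rwa [c.right_inv hz] at this
  cl z hz j k l := by
    have := hw.closed c (c.symm z) ⟨hc, c.map_target hz⟩ j k l
    rwa [c.right_inv hz] at this

theorem DD_congr {A A' : Cm n → Matrix (Fin n) (Fin n) ℂ} {z : Cm n} (h : A =ᶠ[𝓝 z] A') :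
    DD A z = DD A' z := by
  unfold DD
  refine Finset.sum_congr rfl fun j _ => Finset.sum_congr rfl fun k _ => ?_
  refine INT.dz_congr (INT.dzb_congr' ?_)
  filter_upwards [h] with y hy
  rw [hy]

omit [IsManifold 𝓘(ℂ, Cm n) ω X] in
theorem form_holo (φ : Mor L R) {c : Chart n X} {z : X} (hz : At c z) {i : L.ι} (hi : z ∈ L.U i) :
    ContDiffAt ℂ ω (fun ζ => toAf (φ.form i c ζ)) (c z) :=
  Af_contDiffC fun _ => φ.holo i c z hz hi _

omit [IsManifold 𝓘(ℂ, Cm n) ω X] in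
theorem DD_AK (k1 : K1Stmt) (hw : IsKahler w) (hp : R + 1 ≤ n) (hk : k ≠ 0) (s : Sec L k)
    (φ : Mor L R) {c : Chart n X} {z : X} (hz : At c z) {i : L.ι} (hi : z ∈ L.U i)
    {g : Cm n → ℂ} (hg : ContDiffAt ℂ ω g (c z))
    (hgk : ∀ᶠ ζ in 𝓝 (c z), g ζ ^ k = s.f i (c.symm ζ)) :
    DD (AK hp w s φ c) (c z) = c0 n R * (w c (c z)).det *
      hn (w c (c z)) (extDeriv (fun ζ => g ζ • toAf (φ.form i c ζ)) (c z))
        (extDeriv (fun ζ => g ζ • toAf (φ.form i c ζ)) (c z)) := by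
  have h1 : AK hp w s φ c =ᶠ[𝓝 (c z)] fun ζ => QA hp (w c ζ) (g ζ • toAf (φ.form i c ζ)) := by
    filter_upwards [AK_ev hp hk s φ hz hi, hgk] with ζ h1 h2
    have h3 : wtt s i (c.symm ζ) = ‖g ζ‖ ^ 2 := by
      rw [wtt, ← h2, norm_pow, ← pow_mul, mul_comm k 2, pow_mul,
        Real.pow_rpow_inv_natCast (by positivity) hk]
    rw [h1, QA_smul, h3]
  rw [DD_congr h1]
  exact DD_QA k1 hp c.open_target (KOn_of hw hz.1) (c.map_source hz.2)
    (hg.smul (form_holo φ hz hi))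

end

end Vale.Agent.P284.H279.K
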