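import Vale.Agent.P284.H279.K.K2
import Mathlib.Analysis.Calculus.DifferentialForm.Basic

/-!
# P284 (helper279), module K10: alternating maps on `ℂⁿ`, continuity and smoothness
-/

open scoped ContDiff Topology ComplexConjugate ComplexOrder
open Filter Set

noncomputable section

namespace Vale.Agent.P284.H279.K

open Vale.Agent.P272.K Vale.Agent.P284.H608.K

variable {n p : ℕ}

theorem alt_expand (f : (Cm n) [⋀^Fin p]→ₗ[ℂ] ℂ) (v : Fin p → Cm n) :
    f v = ∑ s : Fin p → Fin n, (∏ i, v i (s i)) * f fun i => Pi.single (s i) 1 := by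
  have h1 : v = fun i => ∑ j : Fin n, v i j • (Pi.single j 1 : Cm n) := by
    funext i l
    simp [Finset.sum_apply, Pi.single_apply]
  have h2 : f v = f.toMultilinearMap (fun i => ∑ j : Fin n, v i j • (Pi.single j 1 : Cm n)) := by
    rw [← h1]; rfl
  rw [h2, MultilinearMap.map_sum]
  refine Finset.sum_congr rfl fun s _ => ?_
  rw [MultilinearMap.map_smul_univ, smul_eq_mul]
  rfl

/-- an alternating map is continuous -/
def toAf (f : (Cm n) [⋀^Fin p]→ₗ[ℂ] ℂ) : Af n p where
  toMultilinearMap := f.toMultilinearMap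
  cont := by
    have h : (f.toMultilinearMap.toFun : (Fin p → Cm n) → ℂ) =
        fun v => ∑ s : Fin p → Fin n, (∏ i, v i (s i)) * f fun i => Pi.single (s i) 1 := by
      funext v
      exact alt_expand f v
    rw [h]
    fun_prop
  map_eq_zero_of_eq' := f.map_eq_zero_of_eq'

theorem toAf_apply (f : (Cm n) [⋀^Fin p]→ₗ[ℂ] ℂ) (v : Fin p → Cm n) : toAf f v = f v := rfl

theorem ev_toAf (f : (Cm n) [⋀^Fin p]→ₗ[ℂ] ℂ) (s : Fin p → Fin n) :
    ev (toAf f) s = f fun i => Pi.single (s i) 1 := rfl

theorem toAf_smul (c : ℂ) (f : (Cm n) [⋀^Fin p]→ₗ[ℂ] ℂ) : toAf (c • f) = c • toAf f := rfl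

theorem Af_ext {A B : Af n p} (h : ∀ s, ev A s = ev B s) : A = B := by
  ext v
  have h1 := alt_expand A.toAlternatingMap v
  have h2 := alt_expand B.toAlternatingMap v
  refine Eq.trans h1 (Eq.trans ?_ h2.symm)
  exact Finset.sum_congr rfl fun s _ => congrArg _ (h s)

/-- the components -/
def cmp (n p : ℕ) : Af n p →ₗ[ℂ] ((Fin p → Fin n) → ℂ) where
  toFun A s := ev A s
  map_add' _ _ := rfl
  map_smul' _ _ := rfl

theorem cmp_inj : Function.Injective (cmp n p) := fun _ _ h => Af_ext fun s => congrFun h s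

/-- forms are smooth when the components are smooth -/
theorem Af_contDiff {F : Cm n → Af n p} {z : Cm n} {m : WithTop ℕ∞}
    (h : ∀ s, ContDiffAt ℝ m (fun y => ev (F y) s) z) : ContDiffAt ℝ m F z := by
  obtain ⟨g, hg⟩ := (cmp n p).exists_leftInverse_of_injective
    (LinearMap.ker_eq_bot.2 cmp_inj)
  have h1 : F = fun y => g (fun s => ev (F y) s) := by
    funext y
    exact (LinearMap.congr_fun hg (F y)).symm
  rw [h1]
  have h2 : ContDiffAt ℝ m (fun y => fun s => ev (F y) s) z := contDiffAt_pi.2 h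
  exact (((LinearMap.toContinuousLinearMap g).restrictScalars ℝ).contDiff.contDiffAt (x := fun s => ev (F z) s)).comp z h2

theorem Af_contDiffC {F : Cm n → Af n p} {z : Cm n} {m : WithTop ℕ∞}
    (h : ∀ s, ContDiffAt ℂ m (fun y => ev (F y) s) z) : ContDiffAt ℂ m F z := by
  obtain ⟨g, hg⟩ := (cmp n p).exists_leftInverse_of_injective
    (LinearMap.ker_eq_bot.2 cmp_inj)
  have h1 : F = fun y => g (fun s => ev (F y) s) := by
    funext y
    exact (LinearMap.congr_fun hg (F y)).symm
  rw [h1]
  have h2 : ContDiffAt ℂ m (fun y => fun s => ev (F y) s) z := contDiffAt_pi.2 h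
  exact ((LinearMap.toContinuousLinearMap g).contDiff.contDiffAt (x := fun s => ev (F z) s)).comp z h2

/-- the derivatives of a holomorphic form -/
theorem dzV_holo {F : Cm n → Af n p} {z : Cm n} (h : DifferentiableAt ℂ F z) (a : Fin n) :
    dzV a F z = fderiv ℂ F z (Pi.single a 1) := by
  have h1 : fderiv ℝ F z = (fderiv ℂ F z).restrictScalars ℝ :=
    (h.hasFDerivAt.restrictScalars ℝ).fderiv
  have h2 : (Pi.single a Complex.I : Cm n) = Complex.I • Pi.single a 1 := by
    funext l
    by_cases hl : l = a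
    · subst hl; simp
    · simp [hl]
  rw [dzV, h1]
  simp only [ContinuousLinearMap.coe_restrictScalars']
  rw [h2, map_smul, smul_smul, Complex.I_mul_I]
  module

/-- the exterior derivative of a holomorphic form -/
theorem alt_dzV {F : Cm n → Af n p} {z : Cm n} (h : DifferentiableAt ℂ F z) :
    ContinuousAlternatingMap.alternatizeUncurryFin
      (∑ a, (ContinuousLinearMap.proj (R := ℂ) (φ := fun _ : Fin n => ℂ) a).smulRight
        (dzV a F z)) = extDeriv F z := by
  unfold extDeriv
  congr 1
  ext x v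
  rw [sum_apply]
  simp only [ContinuousLinearMap.smulRight_apply, ContinuousLinearMap.proj_apply, dzV_holo h]
  have hx : x = ∑ a : Fin n, x a • (Pi.single a 1 : Cm n) := by
    funext l
    simp [Finset.sum_apply, Pi.single_apply]
  conv_rhs => rw [hx, map_sum]
  simp only [map_smul]

end Vale.Agent.P284.H279.K
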