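import Vale.Agent.P284.H279.K.BogK
import Vale.Agent.P284.H752.K1
import Vale.Agent.P284.H608.K.App

/-!
# P284 (helper279): `BogKStmt` without hypotheses
-/

open scoped Manifold ContDiff Topology ComplexOrder ComplexConjugate Matrix
open Filter Set

noncomputable section

namespace Vale.Agent.P284.H279.K

open Vale.Agent.P272.K Vale.Agent.P284.H206.Bog
  Vale.Agent.P284.H248 Vale.Agent.P284.H608.K Vale.Agent.P284.H206

theorem bogK : BogK := bogK_of Vale.Agent.P284.H752.k1Stmt

/-- **K10** -/
theorem bogKStmt : Vale.Agent.P284.H608.K.BogKStmt := by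
  intro n R X _ _ _ _ _ w hw L φ hD
  exact bogK n R X w hw L φ hD

end Vale.Agent.P284.H279.K
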