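import Vale.Agent.P284.H279.K.OmK

/-!
# P284 (helper279), module K10: Bogomolov's theorem for generically decomposable forms on compact
Kaehler manifolds
-/

open scoped Manifold ContDiff Topology ComplexOrder ComplexConjugate Matrix
open Filter Set

noncomputable section

namespace Vale.Agent.P284.H279.K

open Vale.Agent.P272.K Vale.Agent.P284.H206.Bog
  Vale.Agent.P284.H248 Vale.Agent.P284.H608.K Vale.Agent.P284.H206

/-- **BOG**, Kaehler version -/
def BogK : Prop :=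
  ∀ (n R : ℕ) (X : Type) [TopologicalSpace X] [T2Space X] [CompactSpace X]
    [ChartedSpace (Cm n) X] [IsManifold 𝓘(ℂ, Cm n) ω X]
    (w : Chart n X → Cm n → Matrix (Fin n) (Fin n) ℂ) (_ : IsKahler w)
    (L : LineBundle n X) (φ : Mor L R) (_ : Dense {x | DecAt φ x}), ¬ IitakaGE L (R + 1)

/-- **BOG** on compact Kaehler manifolds -/
theorem bogK_of (k1 : K1Stmt) : BogK := by
  intro n R X _ _ _ _ _ w hw L φ hD hI
  obtain ⟨k, hk1, s, i₀, e₀, x₀, he₀, hi₀, hs₀, hli⟩ := hI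
  have hk : k ≠ 0 := by omega
  -- the differentials of the ratios
  set q : Fin (R + 1) → Cm n → ℂ := fun a z => (s a.succ).f i₀ (e₀.symm z) / (s 0).f i₀ (e₀.symm z)
    with hq
  have hsa : ∀ a, AnalyticAt ℂ (fun z => (s a).f i₀ (e₀.symm z)) (e₀ x₀) := fun a =>
    ((s a).holo i₀ e₀ x₀ he₀ hi₀).analyticAt
  have hs0 : (s 0).f i₀ (e₀.symm (e₀ x₀)) ≠ 0 := by rwa [he₀.left_inv]
  have hqa : ∀ a, AnalyticAt ℂ (q a) (e₀ x₀) := fun a => (hsa _).div (hsa 0) hs0
  have hcont : ContinuousAt (fun z => fun a => fderiv ℂ (q a) z) (e₀ x₀) :=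
    continuousAt_pi.2 fun a => (hqa a).fderiv.continuousAt
  have hev1 : ∀ᶠ z in 𝓝 (e₀ x₀), LinearIndependent ℂ fun a => fderiv ℂ (q a) z :=
    hcont.eventually (isOpen_setOfPred_linearIndependent.mem_nhds hli)
  have hev2 : ∀ᶠ z in 𝓝 (e₀ x₀), (s 0).f i₀ (e₀.symm z) ≠ 0 ∧ (∀ a, AnalyticAt ℂ (q a) z) := by
    filter_upwards [(hsa 0).continuousAt.eventually_ne hs0,
      eventually_all.2 fun a => (hqa a).eventually_analyticAt] with z h1 h2
    exact ⟨h1, h2⟩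
  obtain ⟨O, hO, hOo, hxO⟩ := _root_.eventually_nhds_iff.1 (hev1.and hev2)
  have hWo : IsOpen (e₀.source ∩ e₀ ⁻¹' O ∩ L.U i₀) :=
    (e₀.isOpen_inter_preimage hOo).inter (L.isOpen i₀)
  obtain ⟨x, ⟨⟨hx1, hx2⟩, hx3⟩, hxD⟩ := hD.inter_open_nonempty _ hWo ⟨x₀, ⟨he₀.2, hxO⟩, hi₀⟩
  obtain ⟨i, e, he, hi, U, b, hU, hU0, hb, hbs, hnf⟩ := hxD
  obtain ⟨g1, g2, g3⟩ := hO _ hx2
  have he₀x : At e₀ x := ⟨he₀.1, hx1⟩
  rw [he₀x.left_inv] at g2
  -- `s 0` does not vanish in the frame `i`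
  have hsx : (s 0).f i x ≠ 0 := by
    intro h0
    apply g2
    rw [(s 0).change i₀ i x hx3 hi, h0, mul_zero]
  -- the ratios in the new chart
  have htr : ∀ a : Fin (R + 1), (fun z => (s a.succ).f i (e.symm z) / (s 0).f i (e.symm z))
      =ᶠ[𝓝 (e x)] fun z => q a (e₀ (e.symm z)) := by
    intro a
    have h1 : ∀ᶠ z in 𝓝 (e x), e.symm z ∈ L.U i ∩ L.U i₀ := by
      have := he.nhds_at he
      exact ev_symm he (((L.isOpen i).inter (L.isOpen i₀)).mem_nhds ⟨hi, hx3⟩)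
    filter_upwards [he.nhds_at he₀x, h1] with z hz hz2
    rw [hq]
    simp only
    rw [hz.2.2.left_inv, (s a.succ).change i i₀ _ hz2.1 hz2.2, (s 0).change i i₀ _ hz2.1 hz2.2,
      mul_div_mul_left _ _ (pow_ne_zero _ (L.ne_zero i i₀ _ hz2.1 hz2.2))]
  have htd := transition_differentiableAt he he₀x
  have hder : ∀ a : Fin (R + 1),
      fderiv ℂ (fun z => (s a.succ).f i (e.symm z) / (s 0).f i (e.symm z)) (e x) =
      (fderiv ℂ (q a) (e₀ x)).comp (fderiv ℂ (fun z => e₀ (e.symm z)) (e x)) := by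
    intro a
    have h1 : DifferentiableAt ℂ (q a) (e₀ (e.symm (e x))) := by
      rw [he.left_inv]; exact (g3 a).differentiableAt
    have h2 := fderiv_comp (𝕜 := ℂ) (e x) (g := q a) (f := fun z => e₀ (e.symm z)) h1 htd
    rw [(htr a).fderiv_eq, show (fun z => q a (e₀ (e.symm z))) = q a ∘ fun z => e₀ (e.symm z) from rfl,
      h2, he.left_inv]
  have hsurj : Function.Surjective (fderiv ℂ (fun z => e₀ (e.symm z)) (e x)) := by
    intro y
    refine ⟨(jacM e e₀ x)⁻¹ *ᵥ y, ?_⟩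
    funext p
    rw [jmat_mulVec htd]
    have h1 : jacM e e₀ x *ᵥ ((jacM e e₀ x)⁻¹ *ᵥ y) = y := by
      rw [Matrix.mulVec_mulVec, Matrix.mul_nonsing_inv _ (jacM_isUnit he he₀x), Matrix.one_mulVec]
    exact congrFun h1 p
  have hli' : LinearIndependent ℂ fun a : Fin (R + 1) =>
      fderiv ℂ (fun z => (s a.succ).f i (e.symm z) / (s 0).f i (e.symm z)) (e x) := by
    rw [Fintype.linearIndependent_iff] at g1 ⊢
    intro c hc a
    refine g1 c ?_ a
    ext1 y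
    obtain ⟨v, rfl⟩ := hsurj y
    have h1 := congrArg (fun (f : Cm n →L[ℂ] ℂ) => f v) hc
    simp only [hder, sum_apply, smul_apply,
      ContinuousLinearMap.comp_apply, zero_apply] at h1
    simpa [sum_apply] using h1
  have hle := card_le hbs hli' fun a ξ hξ =>
    ker_of_Om (s 0) (s a.succ) φ hU0 hbs hnf.self_of_nhds
      (OmK_zero k1 hw φ hk (s 0) (s a.succ) he hi hsx) hξ
  omega

end Vale.Agent.P284.H279.K
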