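import Vale.Agent.P272.K.INT.Wirt
import Vale.Agent.P284.H608.K.Spec

/-!
# P284 (helper279), module K2: sums over permutations and closed forms

For a matrix of functions `M` with `∂_l M_{jk} = ∂_j M_{lk}` the sum
`Σ_σ sgn σ c(σ_1, .., σ_P) ∂_{σ_0} (Π_{k > P} M_{σ_k τ_k})` vanishes.
-/

open scoped ContDiff Topology ComplexConjugate
open Filter Set MeasureTheory

noncomputable section

namespace Vale.Agent.P284.H279.K

open Vale.Agent.P272.K

variable {n P : ℕ}

/-- the index set `{k | P + 1 ≤ k}` -/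
abbrev tl (n P : ℕ) : Finset (Fin n) := Finset.univ.filter fun k : Fin n => P + 1 ≤ (k : ℕ)

theorem diff_prod {ι : Type*} [DecidableEq ι] (s : Finset ι) {F : ι → Cm n → ℂ}
    {z : Cm n} (h : ∀ k ∈ s, DifferentiableAt ℝ (F k) z) :
    DifferentiableAt ℝ (fun y => ∏ k ∈ s, F k y) z :=
  (HasFDerivAt.finsetProd fun k hk => (h k hk).hasFDerivAt).differentiableAt

theorem dz_prod (i : Fin n) {ι : Type*} [DecidableEq ι] (s : Finset ι) {F : ι → Cm n → ℂ}
    {z : Cm n} (h : ∀ k ∈ s, DifferentiableAt ℝ (F k) z) :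
    dz i (fun y => ∏ k ∈ s, F k y) z = ∑ k ∈ s, dz i (F k) z * ∏ l ∈ s.erase k, F l z := by
  induction s using Finset.induction_on with
  | empty => simp
  | insert a s ha ih =>
    have h1 : ∀ k ∈ s, DifferentiableAt ℝ (F k) z := fun k hk => h k (Finset.mem_insert_of_mem hk)
    have e1 : (fun y => ∏ k ∈ insert a s, F k y) = fun y => F a y * ∏ k ∈ s, F k y := by
      funext y; rw [Finset.prod_insert ha]
    rw [e1, INT.dz_mul (h a (Finset.mem_insert_self a s)) (diff_prod s h1),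
      ih h1, Finset.sum_insert ha, Finset.erase_insert ha, Finset.mul_sum]
    congr 1
    refine Finset.sum_congr rfl fun k hk => ?_
    have hka : k ≠ a := fun h => ha (h ▸ hk)
    have e2 : (insert a s).erase k = insert a (s.erase k) := by
      rw [Finset.erase_insert_of_ne (Ne.symm hka)]
    rw [e2, Finset.prod_insert (fun h => ha (Finset.mem_of_mem_erase h))]
    ring

theorem dzb_prod (i : Fin n) {ι : Type*} [DecidableEq ι] (s : Finset ι) {F : ι → Cm n → ℂ}
    {z : Cm n} (h : ∀ k ∈ s, DifferentiableAt ℝ (F k) z) :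
    dzb i (fun y => ∏ k ∈ s, F k y) z = ∑ k ∈ s, dzb i (F k) z * ∏ l ∈ s.erase k, F l z := by
  induction s using Finset.induction_on with
  | empty => simp
  | insert a s ha ih =>
    have h1 : ∀ k ∈ s, DifferentiableAt ℝ (F k) z := fun k hk => h k (Finset.mem_insert_of_mem hk)
    have e1 : (fun y => ∏ k ∈ insert a s, F k y) = fun y => F a y * ∏ k ∈ s, F k y := by
      funext y; rw [Finset.prod_insert ha]
    rw [e1, INT.dzb_mul (h a (Finset.mem_insert_self a s)) (diff_prod s h1),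
      ih h1, Finset.sum_insert ha, Finset.erase_insert ha, Finset.mul_sum]
    congr 1
    refine Finset.sum_congr rfl fun k hk => ?_
    have hka : k ≠ a := fun h => ha (h ▸ hk)
    have e2 : (insert a s).erase k = insert a (s.erase k) := by
      rw [Finset.erase_insert_of_ne (Ne.symm hka)]
    rw [e2, Finset.prod_insert (fun h => ha (Finset.mem_of_mem_erase h))]
    ring

/-- the combinatorial cancellation -/
theorem perm_cancel (hp : P + 1 ≤ n) (c : (Fin P → Fin n) → ℂ)
    (D : Fin n → Fin n → Fin n → ℂ) (N : Fin n → Fin n → ℂ)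
    (hD : ∀ a b k, D a b k = D b a k) :
    ∑ σ : Equiv.Perm (Fin n), ((Equiv.Perm.sign σ : ℤ) : ℂ) *
      (c (fun i => σ (Fin.castLE hp i.succ)) *
        ∑ k ∈ tl n P, D (σ (Fin.castLE hp 0)) (σ k) k * ∏ l ∈ (tl n P).erase k, N (σ l) l) = 0 := by
  have e0 : ∀ σ : Equiv.Perm (Fin n), ((Equiv.Perm.sign σ : ℤ) : ℂ) *
      (c (fun i => σ (Fin.castLE hp i.succ)) *
        ∑ k ∈ tl n P, D (σ (Fin.castLE hp 0)) (σ k) k * ∏ l ∈ (tl n P).erase k, N (σ l) l) =
      ∑ k ∈ tl n P, ((Equiv.Perm.sign σ : ℤ) : ℂ) *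
      (c (fun i => σ (Fin.castLE hp i.succ)) *
        (D (σ (Fin.castLE hp 0)) (σ k) k * ∏ l ∈ (tl n P).erase k, N (σ l) l)) := by
    intro σ
    rw [Finset.mul_sum, Finset.mul_sum]
  simp only [e0]
  rw [Finset.sum_comm]
  refine Finset.sum_eq_zero fun k hk => ?_
  have hk' : P + 1 ≤ (k : ℕ) := (Finset.mem_filter.1 hk).2
  set o : Fin n := Fin.castLE hp 0 with ho
  have hok : o ≠ k := by
    intro h
    have : (o : ℕ) = k := by rw [h]
    rw [ho] at this
    simp at this
    omega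
  set f : Equiv.Perm (Fin n) → ℂ := fun σ => ((Equiv.Perm.sign σ : ℤ) : ℂ) *
      (c (fun i => σ (Fin.castLE hp i.succ)) *
        (D (σ o) (σ k) k * ∏ l ∈ (tl n P).erase k, N (σ l) l)) with hf
  have h1 : ∑ σ, f σ = ∑ σ, f (σ * Equiv.swap o k) :=
    (Equiv.sum_comp (Equiv.mulRight (Equiv.swap o k)) f).symm
  have h2 : ∀ σ, f (σ * Equiv.swap o k) = -f σ := by
    intro σ
    have a1 : (σ * Equiv.swap o k) o = σ k := by simp
    have a2 : (σ * Equiv.swap o k) k = σ o := by simp
    have a3 : ∀ l, l ≠ o → l ≠ k → (σ * Equiv.swap o k) l = σ l := by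
      intro l h1 h2
      rw [Equiv.Perm.mul_apply, Equiv.swap_apply_of_ne_of_ne h1 h2]
    have a4 : (fun i : Fin P => (σ * Equiv.swap o k) (Fin.castLE hp i.succ)) =
        fun i => σ (Fin.castLE hp i.succ) := by
      funext i
      refine a3 _ ?_ ?_
      · intro h
        have : ((Fin.castLE hp i.succ : Fin n) : ℕ) = (o : ℕ) := by rw [h]
        rw [ho] at this
        simp at this
      · intro h
        have : ((Fin.castLE hp i.succ : Fin n) : ℕ) = (k : ℕ) := by rw [h]
        simp at this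
        omega
    have a5 : ∏ l ∈ (tl n P).erase k, N ((σ * Equiv.swap o k) l) l =
        ∏ l ∈ (tl n P).erase k, N (σ l) l := by
      refine Finset.prod_congr rfl fun l hl => ?_
      obtain ⟨hl1, hl2⟩ := Finset.mem_erase.1 hl
      have hl' : P + 1 ≤ (l : ℕ) := (Finset.mem_filter.1 hl2).2
      rw [a3 l ?_ hl1]
      intro h
      have : (l : ℕ) = (o : ℕ) := by rw [h]
      rw [ho] at this
      simp at this
      omega
    have a6 : (Equiv.Perm.sign (σ * Equiv.swap o k) : ℤ) = -(Equiv.Perm.sign σ : ℤ) := by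
      rw [Equiv.Perm.sign_mul, Equiv.Perm.sign_swap hok]
      simp
    rw [hf]
    simp only
    rw [a6, a1, a2, a4, a5, hD (σ k) (σ o) k]
    push_cast
    ring
  have h3 : ∑ σ, f σ = -∑ σ, f σ := by
    conv_lhs => rw [h1]
    rw [Finset.sum_congr rfl fun σ _ => h2 σ, Finset.sum_neg_distrib]
  exact self_eq_neg.1 h3

/-- **the Kaehler identity**, derivatives `∂` -/
theorem cl_dz (hp : P + 1 ≤ n) {M : Cm n → Matrix (Fin n) (Fin n) ℂ} {z : Cm n}
    (hM : ∀ j k, DifferentiableAt ℝ (fun y => M y j k) z)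
    (hcl : ∀ j k l, dz l (fun y => M y j k) z = dz j (fun y => M y l k) z)
    (c : (Fin P → Fin n) → ℂ) (τ : Fin n → Fin n) :
    ∑ σ : Equiv.Perm (Fin n), ((Equiv.Perm.sign σ : ℤ) : ℂ) *
      (c (fun i => σ (Fin.castLE hp i.succ)) *
        dz (σ (Fin.castLE hp 0)) (fun y => ∏ k ∈ tl n P, M y (σ k) (τ k)) z) = 0 := by
  rw [← perm_cancel hp c (fun a b k => dz a (fun y => M y b (τ k)) z) (fun a l => M z a (τ l))
    (fun a b k => hcl b (τ k) a)]
  refine Finset.sum_congr rfl fun σ _ => ?_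
  rw [dz_prod _ _ fun k _ => hM (σ k) (τ k)]

/-- **the Kaehler identity**, derivatives `∂̄` -/
theorem cl_dzb (hp : P + 1 ≤ n) {M : Cm n → Matrix (Fin n) (Fin n) ℂ} {z : Cm n}
    (hM : ∀ j k, DifferentiableAt ℝ (fun y => M y j k) z)
    (hcl : ∀ j k l, dzb l (fun y => M y k j) z = dzb j (fun y => M y k l) z)
    (c : (Fin P → Fin n) → ℂ) (σ : Fin n → Fin n) :
    ∑ τ : Equiv.Perm (Fin n), ((Equiv.Perm.sign τ : ℤ) : ℂ) *
      (c (fun i => τ (Fin.castLE hp i.succ)) *
        dzb (τ (Fin.castLE hp 0)) (fun y => ∏ k ∈ tl n P, M y (σ k) (τ k)) z) = 0 := by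
  rw [← perm_cancel hp c (fun a b k => dzb a (fun y => M y (σ k) b) z) (fun a l => M z (σ l) a)
    (fun a b k => hcl b (σ k) a)]
  refine Finset.sum_congr rfl fun τ _ => ?_
  rw [dzb_prod _ _ fun k _ => hM (σ k) (τ k)]

/-- closedness of a Hermitian matrix, the conjugate form -/
theorem cl_conj {M : Cm n → Matrix (Fin n) (Fin n) ℂ} {z : Cm n}
    (hh : ∀ᶠ y in 𝓝 z, (M y).IsHermitian)
    (hcl : ∀ j k l, dz l (fun y => M y j k) z = dz j (fun y => M y l k) z) (j k l : Fin n) :
    dzb l (fun y => M y k j) z = dzb j (fun y => M y k l) z := by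
  have h1 : ∀ a b c : Fin n, dzb a (fun y => M y b c) z = conj (dz a (fun y => M y c b) z) := by
    intro a b c
    rw [← INT.dzb_conj]
    refine INT.dzb_congr ?_
    filter_upwards [hh] with y hy
    have := congrFun (congrFun hy b) c
    rw [Matrix.conjTranspose_apply] at this
    rw [← this]
    rfl
  rw [h1, h1, hcl]

end Vale.Agent.P284.H279.K
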