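import Vale.Agent.P284.H279.K.AK
import Vale.Agent.P284.H206.Bog.App4

/-!
# P284 (helper279), module K10: on a compact Kaehler manifold the form `s^{1/k} φ` is closed, for a
section `s` of `L^k` and a morphism `φ : L → Ω^R`
-/

open scoped Manifold ContDiff Topology ComplexOrder ComplexConjugate Matrix
open Filter Set MeasureTheory

noncomputable section

namespace Vale.Agent.P284.H279.K

open Vale.Agent.P272.K Vale.Agent.P272.K.INT Vale.Agent.P272.KOD Vale.Agent.P284.H206.Bog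
  Vale.Agent.P284.H248 Vale.Agent.P284.H608.K

variable {n R : ℕ} {X : Type} [TopologicalSpace X] [ChartedSpace (Cm n) X]
  [IsManifold 𝓘(ℂ, Cm n) ω X]
  {L : LineBundle n X} {k : ℕ} {w : Chart n X → Cm n → Matrix (Fin n) (Fin n) ℂ}

/-- closedness in a chart of the partition of unity -/
theorem closed_part [T2Space X] [CompactSpace X] (k1 : K1Stmt) (hw : IsKahler w) (hp : R + 1 ≤ n)
    (hk : k ≠ 0) (s : Sec L k) (φ : Mor L R) {i : L.ι} {x : X} (hi : x ∈ L.U i)
    (hs : s.f i x ≠ 0) : ∃ c : Chart n X, At c x ∧ ∀ g : Cm n → ℂ, ContDiffAt ℂ ω g (c x) →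
      (∀ᶠ ζ in 𝓝 (c x), g ζ ^ k = s.f i (c.symm ζ)) →
      extDeriv (fun ζ => g ζ • toAf (φ.form i c ζ)) (c x) = 0 := by
  obtain ⟨G, B, hG, hG0⟩ := exists_wt hw s
  obtain ⟨C, hC, hb⟩ := NK_bdd k1 hw hp hk s φ
  have hsne : ∀ x, G x ≠ 0 → ∀ i, x ∈ L.U i → s.f i x ≠ 0 := fun x h i hi h0 =>
    h ((hG0 x i hi).2 h0)
  have hTF : TF (ZG G) (AK hp w s φ) := by
    refine ⟨fun e x hx hxS a b => ?_, fun e e' x hx hx' _ => AK_change k1 hw hp hk s φ e e' x hx hx'⟩
    obtain ⟨i, hi⟩ := L.cover x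
    exact AK_smooth hw hp hk s φ hx hi (hsne x hxS i hi) a b
  have hcpos : ∀ (e : Chart n X) x, At e x → ∀ A : Af n (R + 1),
      0 ≤ (c0 n R * (w e (e x)).det * hn (w e (e x)) A A).re := by
    intro e x hx A
    have h1 : 0 ≤ c0 n R * (w e (e x)).det * hn (w e (e x)) A A :=
      mul_nonneg (mul_nonneg (c0_pos n R).le (hw.posDef e x hx).det_pos.le)
        (hn_nonneg k1 (hw.posDef e x hx) A)
    exact (Complex.nonneg_iff.1 h1).1
  have hDD : ∀ (e : Chart n X) (x : X), At e x → G x ≠ 0 → 0 ≤ (DD (AK hp w s φ e) (e x)).re := by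
    intro e x hx hGx
    obtain ⟨i, hi⟩ := L.cover x
    have hs : s.f i (e.symm (e x)) ≠ 0 := by rw [hx.left_inv]; exact hsne x hGx i hi
    obtain ⟨g, hg, hgk⟩ := exists_root (s.holo i e x hx hi) hs hk
    rw [DD_AK k1 hw hp hk s φ hx hi hg hgk]
    exact hcpos e x hx _
  have hGx : G x ≠ 0 := fun h => hs ((hG0 x i hi).1 h)
  obtain ⟨i₀, hi₀⟩ : ∃ i₀, 0 < (part n X).ρ i₀ x := by
    by_contra hcon
    push Not at hcon
    have h1 := (part n X).sum x
    have h2 : ∑ i, (part n X).ρ i x ≤ 0 := Finset.sum_nonpos fun i _ => hcon i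
    linarith
  have hAt : At ((part n X).e i₀) x := ⟨(part n X).mem i₀,
    (part n X).supp i₀ (subset_tsupport _ (by
      simp only [Function.mem_support]; exact hi₀.ne'))⟩
  refine ⟨(part n X).e i₀, hAt, fun g hg hgk => ?_⟩
  have h0 := DD_zeroK hw hG hC hTF (fun e x hx _ => AK_psd k1 hw hp s φ hx)
    (fun e x hx _ => hb e x hx) hDD hGx hi₀
  rw [DD_AK k1 hw hp hk s φ hAt hi hg hgk] at h0
  by_contra hne
  have h1 : 0 < c0 n R * (w ((part n X).e i₀) ((part n X).e i₀ x)).det *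
      hn (w ((part n X).e i₀) ((part n X).e i₀ x))
        (extDeriv (fun ζ => g ζ • toAf (φ.form i ((part n X).e i₀) ζ)) ((part n X).e i₀ x))
        (extDeriv (fun ζ => g ζ • toAf (φ.form i ((part n X).e i₀) ζ)) ((part n X).e i₀ x)) :=
    mul_pos (mul_pos (c0_pos n R) (hw.posDef _ x hAt).det_pos)
      (k1.pos n (R + 1) _ (hw.posDef _ x hAt) _ hne)
  exact (Complex.pos_iff.1 h1).1.ne' h0

/-- **closedness**: `d (s^{1/k} φ) = 0` at the points where `s ≠ 0`, for any morphism `φ : L → Ω^R` and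
any section `s` of `L^k` on a compact Kaehler manifold -/
theorem closedK [T2Space X] [CompactSpace X] (k1 : K1Stmt) (hw : IsKahler w)
    (φ : Mor L R) (hk : k ≠ 0) (s : Sec L k) {i : L.ι} {e : Chart n X} {x : X} (he : At e x)
    (hi : x ∈ L.U i) (hs : s.f i x ≠ 0) {g : Cm n → ℂ} (hg : ContDiffAt ℂ ω g (e x))
    (hgk : ∀ᶠ z in 𝓝 (e x), g z ^ k = s.f i (e.symm z)) :
    extDeriv (fun z => g z • toAf (φ.form i e z)) (e x) = 0 := by
  by_cases hp : R + 1 ≤ n
  swap
  · exact Af_zero (by omega) _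
  obtain ⟨c, hc, hcl⟩ := closed_part k1 hw hp hk s φ hi hs
  -- the root in the chart `c`
  set gc : Cm n → ℂ := fun ζ => g (e (c.symm ζ)) with hgc
  have hec : e (c.symm (c x)) = e x := by rw [hc.left_inv]
  have hgc1 : ContDiffAt ℂ ω gc (c x) := by
    refine ContDiffAt.comp (c x) (g := g) ?_ (transition hc he)
    rw [hec]; exact hg
  have hgk2 : ∀ᶠ ζ in 𝓝 (c x), gc ζ ^ k = s.f i (c.symm ζ) := by
    have h1 : ContinuousAt (fun ζ => e (c.symm ζ)) (c x) := (transition hc he).continuousAt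
    have h2 : ∀ᶠ ζ in 𝓝 (c x), g (e (c.symm ζ)) ^ k = s.f i (e.symm (e (c.symm ζ))) :=
      h1.eventually (p := fun y => g y ^ k = s.f i (e.symm y)) (by
        simp only
        rw [hec]
        exact hgk)
    filter_upwards [h2, hc.nhds_at he] with ζ h3 h4
    rw [hgc]
    simp only
    rw [h3, h4.2.2.left_inv]
  have h0 := hcl gc hgc1 hgk2
  -- the pull-back
  set f : Cm n → Cm n := fun z => c (e.symm z) with hf
  have hce : c (e.symm (e x)) = c x := by rw [he.left_inv]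
  have hev : (fun z => g z • toAf (φ.form i e z)) =ᶠ[𝓝 (e x)]
      fun z => (gc (f z) • toAf (φ.form i c (f z))).compContinuousLinearMap (fderiv ℂ f z) := by
    filter_upwards [he.nhds_at hc, ev_U he (L.isOpen i) hi] with z hz hz2
    have h1 : gc (f z) = g z := by
      rw [hgc, hf]
      simp only
      rw [hz.2.2.left_inv, e.right_inv hz.1]
    have h2 := φ.change i e c (e.symm z) hz.2.1 hz.2.2 hz2.2.2
    rw [e.right_inv hz.1] at h2
    rw [h1, h2]
    rfl
  have hω : DifferentiableAt ℂ (fun ζ => gc ζ • toAf (φ.form i c ζ)) (f (e x)) := by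
    rw [hf]
    simp only
    rw [hce]
    exact (hgc1.smul (form_holo φ hc hi)).differentiableAt (by simp)
  have h3 := extDeriv_pullback (r := ω) hω (transition he hc) (by exact le_top)
  rw [hev.extDeriv_eq, h3]
  have h4 : f (e x) = c x := hce
  rw [h4, h0]
  rfl

end Vale.Agent.P284.H279.K
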