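import Vale.Agent.P284.H279.K.QA

/-!
# P284 (helper279), module K10: `i∂∂̄(α ∧ ᾱ ∧ w^{n-R-1}) = ∂α ∧ ∂ᾱ ∧ w^{n-R-1}` for holomorphic `α`
-/

open scoped ContDiff Topology ComplexConjugate ComplexOrder Matrix
open Filter Set

noncomputable section

namespace Vale.Agent.P284.H279.K

open Vale.Agent.P272.K Vale.Agent.P284.H608.K Vale.Agent.P284.H206.Bog

variable {n P : ℕ}

theorem two_le' : (2 : WithTop ℕ∞) ≤ ∞ := by norm_cast

theorem DD_QA (k1 : K1Stmt) (hp : P + 1 ≤ n) {O : Set (Cm n)} (hO : IsOpen O)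
    {w : Cm n → Matrix (Fin n) (Fin n) ℂ} (hw : KOn O w) {z : Cm n} (hz : z ∈ O)
    {α : Cm n → Af n P} (hα : ContDiffAt ℂ ω α z) :
    DD (fun y => QA hp (w y) (α y)) z =
      c0 n P * (w z).det * hn (w z) (extDeriv α z) (extDeriv α z) := by
  set a : (Fin P → Fin n) → Cm n → ℂ := fun s y => ev (α y) s with ha
  have haC : ∀ y, ContDiffAt ℂ ω α y → ∀ s, ContDiffAt ℂ ω (a s) y := by
    intro y hy s
    exact (ContinuousAlternatingMap.apply ℂ (Cm n) ℂ fun i => Pi.single (s i) 1).contDiff.contDiffAt.comp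
      y hy
  have haR : ∀ y, ContDiffAt ℂ ω α y → ∀ s, ContDiffAt ℝ ∞ (a s) y := fun y hy s =>
    ((haC y hy s).restrict_scalars ℝ).of_le (by exact le_top)
  set T : Equiv.Perm (Fin n) → Equiv.Perm (Fin n) → Cm n → ℂ := fun σ τ y =>
    a (fun i => σ (Fin.castLE hp i.succ)) y * conj (a (fun i => τ (Fin.castLE hp i.succ)) y) *
      Wp (w y) P σ τ with hT
  have hWs : ∀ y ∈ O, ∀ σ τ : Fin n → Fin n, ContDiffAt ℝ ∞ (fun y => Wp (w y) P σ τ) y :=
    fun y hy σ τ => contDiffAt_prod fun k _ => hw.sm y hy (σ k) (τ k)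
  have hTs : ∀ y ∈ O, ContDiffAt ℂ ω α y → ∀ σ τ, ContDiffAt ℝ ∞ (T σ τ) y := fun y hy hya σ τ =>
    ((haR y hya _).mul (C2.contDiffAt_conj (haR y hya _))).mul (hWs y hy σ τ)
  have hev : ∀ᶠ y in 𝓝 z, y ∈ O ∧ ContDiffAt ℂ ω α y :=
    Filter.Eventually.and (hO.mem_nhds hz) (hα.eventually (by simp))
  -- the entries
  have e1 : ∀ j k, (fun y => QA hp (w y) (α y) j k) = fun y => ∑ σ, ∑ τ,
      (sg σ * sg τ * ((if σ (Fin.castLE hp 0) = j then 1 else 0) *
        (if τ (Fin.castLE hp 0) = k then 1 else 0))) * T σ τ y := by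
    intro j k
    funext y
    rw [QA_def]
    unfold Qp
    refine Finset.sum_congr rfl fun σ _ => Finset.sum_congr rfl fun τ _ => ?_
    have h4 : Wp (w y) P σ τ = ∏ k ∈ Finset.univ.filter (fun k : Fin n => P + 1 ≤ (k : ℕ)),
      w y (σ k) (τ k) := rfl
    rw [hT]
    simp only
    rw [h4]
    ring
  have hTd : ∀ y ∈ O, ContDiffAt ℂ ω α y → ∀ σ τ, DifferentiableAt ℝ (T σ τ) y :=
    fun y hy hya σ τ => (hTs y hy hya σ τ).differentiableAt (by simp)
  have hTb : ∀ y ∈ O, ContDiffAt ℂ ω α y → ∀ σ τ k, DifferentiableAt ℝ (dzb k (T σ τ)) y :=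
    fun y hy hya σ τ k => C2.differentiableAt_dzb k ((hTs y hy hya σ τ).of_le two_le')
  have e2 : ∀ j k, dz j (dzb k fun y => QA hp (w y) (α y) j k) z = ∑ σ, ∑ τ,
      (sg σ * sg τ * ((if σ (Fin.castLE hp 0) = j then 1 else 0) *
        (if τ (Fin.castLE hp 0) = k then 1 else 0))) * dz j (dzb k (T σ τ)) z := by
    intro j k
    rw [e1 j k]
    have h1 : dzb k (fun y => ∑ σ, ∑ τ,
      (sg σ * sg τ * ((if σ (Fin.castLE hp 0) = j then 1 else 0) *
        (if τ (Fin.castLE hp 0) = k then 1 else 0))) * T σ τ y) =ᶠ[𝓝 z] fun y => ∑ σ, ∑ τ,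
      (sg σ * sg τ * ((if σ (Fin.castLE hp 0) = j then 1 else 0) *
        (if τ (Fin.castLE hp 0) = k then 1 else 0))) * dzb k (T σ τ) y := by
      filter_upwards [hev] with y hy
      rw [INT.dzb_sum _ fun σ _ => DifferentiableAt.fun_sum fun τ _ =>
        (hTd y hy.1 hy.2 σ τ).const_mul _]
      refine Finset.sum_congr rfl fun σ _ => ?_
      rw [INT.dzb_sum _ fun τ _ => (hTd y hy.1 hy.2 σ τ).const_mul _]
      exact Finset.sum_congr rfl fun τ _ => INT.dzb_const_mul _ (hTd y hy.1 hy.2 σ τ)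
    rw [INT.dz_congr h1, INT.dz_sum _ fun σ _ => DifferentiableAt.fun_sum fun τ _ =>
        (hTb z hz hα σ τ k).const_mul _]
    refine Finset.sum_congr rfl fun σ _ => ?_
    rw [INT.dz_sum _ fun τ _ => (hTb z hz hα σ τ k).const_mul _]
    exact Finset.sum_congr rfl fun τ _ => INT.dz_const_mul _ (hTb z hz hα σ τ k)
  have e3 : DD (fun y => QA hp (w y) (α y)) z = ∑ σ, ∑ τ, sg σ * sg τ *
      dz (σ (Fin.castLE hp 0)) (dzb (τ (Fin.castLE hp 0)) (T σ τ)) z := by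
    unfold DD
    simp only [e2]
    have h1 : ∀ (F : Fin n → Fin n → Equiv.Perm (Fin n) → Equiv.Perm (Fin n) → ℂ),
        ∑ j, ∑ k, ∑ σ, ∑ τ, F j k σ τ = ∑ σ, ∑ τ, ∑ j, ∑ k, F j k σ τ := by
      intro F
      calc ∑ j, ∑ k, ∑ σ, ∑ τ, F j k σ τ = ∑ j, ∑ σ, ∑ k, ∑ τ, F j k σ τ :=
            Finset.sum_congr rfl fun j _ => Finset.sum_comm
        _ = ∑ σ, ∑ j, ∑ k, ∑ τ, F j k σ τ := Finset.sum_comm
        _ = ∑ σ, ∑ j, ∑ τ, ∑ k, F j k σ τ :=
            Finset.sum_congr rfl fun σ _ => Finset.sum_congr rfl fun j _ => Finset.sum_comm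
        _ = _ := Finset.sum_congr rfl fun σ _ => Finset.sum_comm
    rw [h1]
    refine Finset.sum_congr rfl fun σ _ => Finset.sum_congr rfl fun τ _ => ?_
    rw [Finset.sum_eq_single (σ (Fin.castLE hp 0)), Finset.sum_eq_single (τ (Fin.castLE hp 0))]
    · simp
    · intro k _ hk
      rw [if_neg (Ne.symm hk)]; simp
    · intro h; exact absurd (Finset.mem_univ _) h
    · intro j _ hj
      refine Finset.sum_eq_zero fun k _ => ?_
      rw [if_neg (Ne.symm hj)]; simp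
    · intro h; exact absurd (Finset.mem_univ _) h
  -- the derivatives `∂̄`
  set T' : Equiv.Perm (Fin n) → Equiv.Perm (Fin n) → Cm n → ℂ := fun σ τ y =>
    (a (fun i => σ (Fin.castLE hp i.succ)) y *
      conj (dz (τ (Fin.castLE hp 0)) (a fun i => τ (Fin.castLE hp i.succ)) y)) *
      Wp (w y) P σ τ with hT'
  have hda : ∀ y, ContDiffAt ℂ ω α y → ∀ s j, ContDiffAt ℂ ω (dz j (a s)) y := fun y hy s j =>
    dz_holo' (haC y hy s) j
  have hdaR : ∀ y, ContDiffAt ℂ ω α y → ∀ s j, DifferentiableAt ℝ (dz j (a s)) y := fun y hy s j =>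
    diff_real (hda y hy s j)
  have haR1 : ∀ y, ContDiffAt ℂ ω α y → ∀ s, DifferentiableAt ℝ (a s) y := fun y hy s =>
    diff_real (haC y hy s)
  have hab : ∀ y, ContDiffAt ℂ ω α y → ∀ s j, dzb j (a s) y = 0 := fun y hy s j =>
    INT.dzb_of_holo ((haC y hy s).differentiableAt (by simp)) j
  have hM : ∀ y ∈ O, ∀ j k, DifferentiableAt ℝ (fun y => w y j k) y := fun y hy j k =>
    (hw.sm y hy j k).differentiableAt (by simp)
  have e4 : ∀ σ, (fun y => ∑ τ, sg τ * dzb (τ (Fin.castLE hp 0)) (T σ τ) y) =ᶠ[𝓝 z]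
      fun y => ∑ τ, sg τ * T' σ τ y := by
    intro σ
    filter_upwards [hev] with y hy
    have h1 := leib_dzb hp (hM y hy.1) (fun j k l => cl_conj (ev_posDef hO hw hy.1)
      (hw.cl y hy.1) j k l) (fun s y => a (fun i => σ (Fin.castLE hp i.succ)) y * conj (a s y))
      (fun s => (haR1 y hy.2 _).mul (C2.differentiableAt_conj (haR1 y hy.2 s))) σ
    refine Eq.trans h1 ?_
    refine Finset.sum_congr rfl fun τ _ => ?_
    rw [INT.dzb_mul (haR1 y hy.2 _) (C2.differentiableAt_conj (haR1 y hy.2 _)), INT.dzb_conj,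
      hab y hy.2, zero_mul, zero_add]
  have hT'd : ∀ σ τ, DifferentiableAt ℝ (T' σ τ) z := fun σ τ =>
    ((haR1 z hα _).mul (C2.differentiableAt_conj (hdaR z hα _ _))).mul
      ((hWs z hz σ τ).differentiableAt (by simp))
  have e5 : ∀ σ, ∑ τ, sg σ * sg τ *
      dz (σ (Fin.castLE hp 0)) (dzb (τ (Fin.castLE hp 0)) (T σ τ)) z =
      ∑ τ, sg σ * sg τ * dz (σ (Fin.castLE hp 0)) (T' σ τ) z := by
    intro σ
    have h1 : ∀ F : Equiv.Perm (Fin n) → ℂ, ∑ τ, sg σ * sg τ * F τ = sg σ * ∑ τ, sg τ * F τ := by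
      intro F
      rw [Finset.mul_sum]
      exact Finset.sum_congr rfl fun τ _ => by ring
    rw [h1, h1]
    congr 1
    have h2 : dz (σ (Fin.castLE hp 0)) (fun y => ∑ τ, sg τ * dzb (τ (Fin.castLE hp 0)) (T σ τ) y) z =
        ∑ τ, sg τ * dz (σ (Fin.castLE hp 0)) (dzb (τ (Fin.castLE hp 0)) (T σ τ)) z := by
      rw [INT.dz_sum _ fun τ _ => (hTb z hz hα σ τ _).const_mul _]
      exact Finset.sum_congr rfl fun τ _ => INT.dz_const_mul _ (hTb z hz hα σ τ _)
    rw [← h2, INT.dz_congr (e4 σ), INT.dz_sum _ fun τ _ => (hT'd σ τ).const_mul _]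
    exact Finset.sum_congr rfl fun τ _ => INT.dz_const_mul _ (hT'd σ τ)
  rw [e3, Finset.sum_congr rfl fun σ _ => e5 σ]
  -- the derivatives `∂`
  have e6 : ∑ σ, ∑ τ, sg σ * sg τ * dz (σ (Fin.castLE hp 0)) (T' σ τ) z =
      ∑ σ, ∑ τ, sg σ * sg τ * (dz (σ (Fin.castLE hp 0)) (fun y =>
        a (fun i => σ (Fin.castLE hp i.succ)) y *
        conj (dz (τ (Fin.castLE hp 0)) (a fun i => τ (Fin.castLE hp i.succ)) y)) z *
        Wp (w z) P σ τ) := by
    rw [Finset.sum_comm]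
    conv_rhs => rw [Finset.sum_comm]
    refine Finset.sum_congr rfl fun τ _ => ?_
    have h1 := leib_dz hp (hM z hz) (hw.cl z hz) (fun s y => a s y *
      conj (dz (τ (Fin.castLE hp 0)) (a fun i => τ (Fin.castLE hp i.succ)) y))
      (fun s => (haR1 z hα _).mul (C2.differentiableAt_conj (hdaR z hα _ _))) τ
    have h2 : ∀ f : Equiv.Perm (Fin n) → ℂ, ∑ σ, (sg σ * sg τ) * f σ = sg τ * ∑ σ, sg σ * f σ := by
      intro f
      rw [Finset.mul_sum]
      exact Finset.sum_congr rfl fun σ _ => by ring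
    rw [h2, h2]
    exact congrArg (fun x => sg τ * x) h1
  rw [e6]
  have hd : DifferentiableAt ℝ α z :=
    (hα.differentiableAt (by simp)).restrictScalars ℝ
  have h7 := k1.F2 n P hp (w z) (hw.pos z hz) (fun j => dzV j α z) (fun j => dzV j α z)
  rw [alt_dzV (hα.differentiableAt (by simp))] at h7
  have h8 : (P.factorial : ℂ) ^ 2 * (n - P - 1).factorial = c0 n P := rfl
  rw [h8] at h7
  rw [← h7]
  unfold Qp
  refine Finset.sum_congr rfl fun σ _ => Finset.sum_congr rfl fun τ _ => ?_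
  have h4 : Wp (w z) P σ τ = ∏ k ∈ Finset.univ.filter (fun k : Fin n => P + 1 ≤ (k : ℕ)),
      w z (σ k) (τ k) := rfl
  rw [← h4, INT.dz_mul (haR1 z hα _) (C2.differentiableAt_conj (hdaR z hα _ _)), INT.dz_conj,
    INT.dzb_of_holo ((hda z hα _ _).differentiableAt (by simp)), map_zero, mul_zero, add_zero]
  simp only
  rw [← ev_dzV hd, ← ev_dzV hd]
  ring

end Vale.Agent.P284.H279.K
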