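import Vale.Agent.P284.H206.Bog.App3

/-!
# P284 (helper279), module K10: a positive bounded form `A` of type `(n-1,n-1)` on a compact Kaehler
manifold, smooth off the zeros of a weight `G`, with `i∂∂̄A ≥ 0` there, satisfies `i∂∂̄A = 0`

The version of helper206's `DD_zero` for a Kaehler metric and a general weight.
-/

open scoped Manifold ContDiff Topology ComplexOrder ComplexConjugate Matrix
open Filter Set MeasureTheory

noncomputable section

namespace Vale.Agent.P284.H279.K

open Vale.Agent.P272.K Vale.Agent.P272.K.INT Vale.Agent.P272.KOD Vale.Agent.P284.H206.Bog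

/-! ### linear algebra -/

section lin
variable {n : ℕ}

theorem pr_add_left (A B H : Matrix (Fin n) (Fin n) ℂ) : pr (A + B) H = pr A H + pr B H := by
  simp only [pr, Matrix.add_apply, add_mul, Finset.sum_add_distrib]

theorem pr_sum_left {ι : Type*} (s : Finset ι) (A : ι → Matrix (Fin n) (Fin n) ℂ)
    (H : Matrix (Fin n) (Fin n) ℂ) : pr (∑ i ∈ s, A i) H = ∑ i ∈ s, pr (A i) H := by
  classical
  induction s using Finset.induction_on with
  | empty => simp [pr]
  | insert a s ha ih => rw [Finset.sum_insert ha, Finset.sum_insert ha, pr_add_left, ih]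

open scoped MatrixOrder in
/-- a positive semidefinite matrix is a sum of matrices of rank one -/
theorem psd_decomp {A : Matrix (Fin n) (Fin n) ℂ} (hA : A.PosSemidef) :
    ∃ b : Fin n → Fin n → ℂ, A = ∑ i, Matrix.vecMulVec (b i) (star (b i)) := by
  obtain ⟨B, hB⟩ := CStarAlgebra.nonneg_iff_eq_star_mul_self.1 hA.nonneg
  refine ⟨fun i j => conj (B i j), ?_⟩
  rw [hB]
  ext j k
  simp only [Matrix.star_eq_conjTranspose, Matrix.mul_apply, Matrix.conjTranspose_apply,
    Matrix.sum_apply, Matrix.vecMulVec_apply, Pi.star_apply, RCLike.star_def]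
  exact Finset.sum_congr rfl fun i _ => by rw [Complex.conj_conj]

theorem psd_bd {A H W : Matrix (Fin n) (Fin n) ℂ} (hA : A.PosSemidef) {B : ℝ}
    (h : ∀ b : Fin n → ℂ, |(pr (Matrix.vecMulVec b (star b)) H).re| ≤
      B * (pr (Matrix.vecMulVec b (star b)) W).re) : |(pr A H).re| ≤ B * (pr A W).re := by
  obtain ⟨b, rfl⟩ := psd_decomp hA
  rw [pr_sum_left, pr_sum_left, Complex.re_sum, Complex.re_sum, Finset.mul_sum]
  exact (Finset.abs_sum_le_sum_abs _ _).trans (Finset.sum_le_sum fun i _ => h _)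

theorem psd_rank_nonneg {A : Matrix (Fin n) (Fin n) ℂ} (hA : A.PosSemidef) (ξ : Fin n → ℂ) :
    0 ≤ (pr A (Matrix.vecMulVec ξ (star ξ))).re := by
  obtain ⟨b, rfl⟩ := psd_decomp hA
  rw [pr_sum_left, Complex.re_sum]
  refine Finset.sum_nonneg fun i _ => ?_
  rw [pr_vv, Complex.ofReal_re]
  positivity

theorem psd_cs {g A : Matrix (Fin n) (Fin n) ℂ} (hg : g.PosDef) (hA : A.PosSemidef)
    (ξ : Fin n → ℂ) : (pr A (Matrix.vecMulVec ξ (star ξ))).re * g.det.re ≤ (pr A g).re *
      (pr (g.adjugate)ᵀ (Matrix.vecMulVec ξ (star ξ))).re := by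
  obtain ⟨b, rfl⟩ := psd_decomp hA
  rw [pr_sum_left, pr_sum_left, Complex.re_sum, Complex.re_sum, Finset.sum_mul, Finset.sum_mul]
  refine Finset.sum_le_sum fun i _ => ?_
  rw [pr_vv, Complex.ofReal_re]
  exact cs1 hg _ _

theorem psd_pr_nonneg {g A : Matrix (Fin n) (Fin n) ℂ} (hg : g.PosDef) (hA : A.PosSemidef) :
    0 ≤ (pr A g).re := by
  obtain ⟨b, rfl⟩ := psd_decomp hA
  rw [pr_sum_left, Complex.re_sum]
  exact Finset.sum_nonneg fun i _ => pr_vg_nonneg _ hg

end lin

variable {n : ℕ} {X : Type*} [TopologicalSpace X] [ChartedSpace (Cm n) X]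
  [IsManifold 𝓘(ℂ, Cm n) ω X] {w : Chart n X → Cm n → Matrix (Fin n) (Fin n) ℂ}

/-! ### the form `w^{n-1}` -/

/-- the coefficient matrix of `w^{n-1}` -/
def Ak (w : Chart n X → Cm n → Matrix (Fin n) (Fin n) ℂ) (e : Chart n X) (z : Cm n) :
    Matrix (Fin n) (Fin n) ℂ := (w e z).adjugateᵀ

omit [ChartedSpace (Cm n) X] [IsManifold 𝓘(ℂ, Cm n) ω X] in
theorem Ak_apply (e : Chart n X) (z : Cm n) (j k : Fin n) :
    Ak w e z j k = ((w e z).updateRow j (Pi.single k 1)).det := by
  rw [Ak, Matrix.transpose_apply, Matrix.adjugate_apply]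

omit [IsManifold 𝓘(ℂ, Cm n) ω X] in
theorem Ak_smooth (hw : IsKahler w) {e : Chart n X} {x : X} (hx : At e x) (j k : Fin n) :
    ContDiffAt ℝ ∞ (fun z => Ak w e z j k) (e x) := by
  simp only [Ak_apply]
  refine INT.contDiffAt_det fun i l => ?_
  by_cases h : i = j
  · subst h
    simp only [Matrix.updateRow_self]
    exact contDiffAt_const
  · simp only [Matrix.updateRow_ne h]
    exact hw.smooth e x hx i l

omit [IsManifold 𝓘(ℂ, Cm n) ω X] in
theorem Ak_TF (hw : IsKahler w) : TF (∅ : Set X) (Ak w) where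
  smooth e x hx _ j k := Ak_smooth hw hx j k
  change e e' x hx hx' _ := by
    have h1 := hw.change e e' x hx hx'
    set J := jacM e e' x with hJ
    have h2 : w e (e x) = Jᵀ * w e' (e' x) * J.map (starRingEnd ℂ) := h1
    have h3 : Ak w e (e x) = J.adjugate * Ak w e' (e' x) * (Jᴴ).adjugate := by
      rw [Ak, Ak, h2, Matrix.adjugate_mul_distrib, Matrix.adjugate_mul_distrib]
      have e1 : ((J.map (starRingEnd ℂ)).adjugate)ᵀ = (Jᴴ).adjugate := by
        rw [Matrix.adjugate_transpose]; rfl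
      have e2 : ((Jᵀ).adjugate)ᵀ = J.adjugate := by
        rw [Matrix.adjugate_transpose, Matrix.transpose_transpose]
      rw [Matrix.transpose_mul, Matrix.transpose_mul, e1, e2]
    rw [h3]
    have e3 : J * (J.adjugate * Ak w e' (e' x) * (Jᴴ).adjugate) * Jᴴ =
        (J * J.adjugate) * Ak w e' (e' x) * ((Jᴴ).adjugate * Jᴴ) := by
      simp only [Matrix.mul_assoc]
    rw [e3, Matrix.mul_adjugate, Matrix.adjugate_mul, Matrix.det_conjTranspose]
    simp only [Matrix.smul_mul, Matrix.mul_smul, Matrix.one_mul, Matrix.mul_one, smul_smul]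
    congr 1
    rw [← Complex.normSq_eq_norm_sq, ← Complex.mul_conj, mul_comm]
    rfl

theorem DD_Ak (hw : IsKahler w) {e : Chart n X} {x : X} (hx : At e x) :
    DD (Ak w e) (e x) = 0 := by
  have hA : ∀ᶠ z in 𝓝 (e x), ∀ j k, ContDiffAt ℝ ∞ (fun z => Ak w e z j k) z := by
    filter_upwards [hx.nhds_at hx] with z hz j k
    have := Ak_smooth hw hz.2.1 j k
    rwa [e.right_inv hz.1] at this
  have hdiv : ∀ k, (fun z => ∑ j, dz j (fun y => Ak w e y j k) z) =ᶠ[𝓝 (e x)] fun _ => 0 := by
    intro k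
    filter_upwards [hx.nhds_at hx] with z hz
    have hsm : ∀ i j, ContDiffAt ℝ ∞ (fun y => w e y i j) z := by
      intro i j
      have := hw.smooth e _ hz.2.1 i j
      rwa [e.right_inv hz.1] at this
    have hcl : ∀ i k l, dz i (fun y => w e y k l) z = dz k (fun y => w e y i l) z := by
      intro i k l
      have := (INT.IsKahler.isClosedForm hw).closed e _ hz.2.1 i k l
      rwa [e.right_inv hz.1] at this
    have h1 := INT.piola (M := fun y => w e y) (a := fun _ => Pi.single k 1) (z := z)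
      (fun i j => (hsm i j).differentiableAt (by simp))
      (fun l => differentiableAt_const _) (fun i k l => hcl i k l)
    have h2 : ∀ j, dz j (fun y => Ak w e y j k) z =
        dz j (fun y => ((w e y).updateRow j (Pi.single k 1)).det) z := by
      intro j
      congr 1
      funext y
      rw [Ak_apply]
    simp only [h2]
    rw [h1]
    refine Finset.sum_eq_zero fun r _ => ?_
    refine Matrix.det_eq_zero_of_row_eq_zero r fun l => ?_
    rw [Matrix.updateRow_self]
    exact INT.dz_const _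
  have h3 : DD (Ak w e) (e x) = ∑ k, dzb k (fun z => ∑ j, dz j (fun y => Ak w e y j k) z) (e x) := by
    unfold DD
    rw [Finset.sum_comm]
    refine Finset.sum_congr rfl fun k _ => ?_
    rw [INT.dzb_sum Finset.univ fun j _ =>
      (INT.smooth_dz (hA.self_of_nhds j k)).differentiableAt (by simp)]
    refine Finset.sum_congr rfl fun j _ => ?_
    exact INT.dz_dzb_comm ((hA.self_of_nhds j k).of_le two_le_inf)
  rw [h3]
  refine Finset.sum_eq_zero fun k _ => ?_
  rw [INT.dzb_congr (hdiv k), INT.dzb_const]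

/-- the integral of `w^{n-1} ∧ i∂∂̄χ` vanishes -/
theorem intX_Ak [T2Space X] [CompactSpace X] (hw : IsKahler w) {χ : X → ℝ}
    (hχ : SmoothFn (n := n) χ) : intX (BB (Ak w) χ) = 0 := by
  rw [BB_total (Ak_TF hw) hχ (by simp)]
  refine Finset.sum_eq_zero fun i _ => ?_
  rw [setIntegral_congr_fun (g := fun _ => (0 : ℝ)) ((part n X).e i).open_target.measurableSet]
  · simp
  · intro z hz
    have h := DD_Ak hw (e := (part n X).e i) (x := ((part n X).e i).symm z)
      ⟨(part n X).mem i, ((part n X).e i).map_target hz⟩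
    rw [((part n X).e i).right_inv hz] at h
    simp only [h, Complex.zero_re, zero_mul]

/-! ### weights -/

/-- a weight: a nonnegative smooth function `G` such that `i∂∂̄ log G` is bounded off the zeros -/
structure Wt (w : Chart n X → Cm n → Matrix (Fin n) (Fin n) ℂ) (G : X → ℝ) (B : ℝ) : Prop where
  smooth : SmoothFn (n := n) G
  nonneg : ∀ x, 0 ≤ G x
  B0 : 0 ≤ B
  bd : ∀ e x, At e x → G x ≠ 0 → ∀ b : Fin n → ℂ,
    |(pr (Matrix.vecMulVec b (star b)) (cHess (fun y => Real.log (G (e.symm y))) (e x))).re| ≤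
      B * (pr (Matrix.vecMulVec b (star b)) (w e (e x))).re

variable {G : X → ℝ} {B : ℝ}

theorem Wt.cont (hG : Wt w G B) : Continuous G := SmoothFn.continuous hG.smooth

/-- `∂ log G` -/
def gk (G : X → ℝ) (e : Chart n X) (z : Cm n) (j : Fin n) : ℂ :=
  dz j (fun y => ((Real.log (G (e.symm y)) : ℝ) : ℂ)) z

omit [IsManifold 𝓘(ℂ, Cm n) ω X] in
theorem log_contDiffAt (hG : SmoothFn (n := n) G) {e : Chart n X} {x : X}
    (hx : At e x) (h0 : G x ≠ 0) :
    ContDiffAt ℝ ∞ (fun y => Real.log (G (e.symm y))) (e x) := by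
  refine (hG e x hx).log ?_
  rwa [e.left_inv hx.2]

omit [IsManifold 𝓘(ℂ, Cm n) ω X] in
/-- the Hessian of `Θ(log G)` -/
theorem pr_compk (hG : SmoothFn (n := n) G) {e : Chart n X} {x : X}
    (hx : At e x) (h0 : G x ≠ 0) {F : X → ℝ} {Θ Θ₁ : ℝ → ℝ} {Θ₂ : ℝ}
    (hF : ∀ᶠ y in 𝓝 x, F y = Θ (Real.log (G y)))
    (h1 : ∀ᶠ s in 𝓝 (Real.log (G x)), HasDerivAt Θ (Θ₁ s) s)
    (h2 : HasDerivAt Θ₁ Θ₂ (Real.log (G x))) (A : Matrix (Fin n) (Fin n) ℂ) :
    pr A (cHess (fun y => F (e.symm y)) (e x)) =
      (Θ₁ (Real.log (G x)) : ℂ) * pr A (cHess (fun y => Real.log (G (e.symm y))) (e x)) +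
      (Θ₂ : ℂ) * pr A (Matrix.vecMulVec (gk G e (e x)) (star (gk G e (e x)))) := by
  have hs := log_contDiffAt hG hx h0
  have e1 : (fun y => F (e.symm y)) =ᶠ[𝓝 (e x)] fun y => Θ (Real.log (G (e.symm y))) :=
    ev_symm hx hF
  have hxx : Real.log (G (e.symm (e x))) = Real.log (G x) := by
    rw [e.left_inv hx.2]
  have h3 : ∀ j k, cHess (fun y => F (e.symm y)) (e x) j k =
      (Θ₁ (Real.log (G x)) : ℂ) * cHess (fun y => Real.log (G (e.symm y))) (e x) j k +
      (Θ₂ : ℂ) * (gk G e (e x) j * star (gk G e (e x) k)) := by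
    intro j k
    rw [C2.cHess_congr e1]
    have h4 := C2.cHess_comp (ψ := Θ) (ψ₁ := Θ₁) (ψ₂ := Θ₂)
      (u := fun y => Real.log (G (e.symm y))) (z := e x)
      (by rw [hxx]; exact h1) (by rw [hxx]; exact h2) (hs.of_le two_le_inf) j k
    rw [h4, hxx]
    have h5 : dzb k (fun y => ((Real.log (G (e.symm y)) : ℝ) : ℂ)) (e x) =
        star (gk G e (e x) k) := by
      rw [C2.dzb_real k (hs.differentiableAt (by simp))]
      rfl
    rw [h5]
    rfl
  simp only [pr, h3, Matrix.vecMulVec_apply, Pi.star_apply, Finset.mul_sum, ← Finset.sum_add_distrib]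
  refine Finset.sum_congr rfl fun j _ => Finset.sum_congr rfl fun k _ => ?_
  ring

/-- the volume density -/
def dk (w : Chart n X → Cm n → Matrix (Fin n) (Fin n) ℂ) (e : Chart n X) (z : Cm n) : ℝ :=
  (w e z).det.re

theorem dk_density (hw : IsKahler w) : IsDensity (dk w) :=
  (INT.IsKahler.isClosedForm hw).isDensity

omit [IsManifold 𝓘(ℂ, Cm n) ω X] in
theorem dk_pos (hw : IsKahler w) {e : Chart n X} {x : X} (hx : At e x) : 0 < dk w e (e x) :=
  (Complex.pos_iff.1 (hw.posDef e x hx).det_pos).1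

/-- the gradient energy of `log G` -/
def RK (G : X → ℝ) (w : Chart n X → Cm n → Matrix (Fin n) (Fin n) ℂ) (e : Chart n X) (z : Cm n) : ℝ :=
  (pr (Ak w e z) (Matrix.vecMulVec (gk G e z) (star (gk G e z)))).re

omit [IsManifold 𝓘(ℂ, Cm n) ω X] in
theorem RK_nonneg (hw : IsKahler w) {e : Chart n X} {x : X} (hx : At e x) :
    0 ≤ RK G w e (e x) :=
  rank_nonneg (hw.posDef e x hx) _

omit [IsManifold 𝓘(ℂ, Cm n) ω X] in
theorem Ak_psd (hw : IsKahler w) {e : Chart n X} {x : X} (hx : At e x) :
    (Ak w e (e x)).PosSemidef := (adj_posSemidef (hw.posDef e x hx)).transpose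

omit [ChartedSpace (Cm n) X] [IsManifold 𝓘(ℂ, Cm n) ω X] in
theorem Ak_w (e : Chart n X) (x : X) :
    (pr (Ak w e (e x)) (w e (e x))).re = n * dk w e (e x) := by
  rw [Ak, pr_adj, dk]
  have : ((n : ℂ) * (w e (e x)).det) = (((n : ℝ) : ℂ) * (w e (e x)).det) := by push_cast; rfl
  rw [this, Complex.re_ofReal_mul]

/-! ### the functions `log (G + δ)` -/

/-- `log (G + δ)` -/
def Fk (G : X → ℝ) (δ : ℝ) (x : X) : ℝ := Real.log (G x + δ)

omit [IsManifold 𝓘(ℂ, Cm n) ω X] in
theorem Fk_smooth (hG : Wt w G B) {δ : ℝ} (hδ : 0 < δ) : SmoothFn (n := n) (Fk G δ) := by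
  intro e x hx
  refine ContDiffAt.log ((hG.smooth e x hx).add contDiffAt_const) ?_
  have := hG.nonneg (e.symm (e x))
  positivity

theorem pos_ev (hG : Wt w G B) {x : X} (h0 : G x ≠ 0) : ∀ᶠ y in 𝓝 x, 0 < G y := by
  filter_upwards [hG.cont.continuousAt.eventually_ne h0] with y hy
  exact lt_of_le_of_ne (hG.nonneg y) (Ne.symm hy)

theorem Fk_eq (hG : Wt w G B) {δ : ℝ} {x : X} (h0 : G x ≠ 0) :
    ∀ᶠ y in 𝓝 x, Fk G δ y = ps δ (Real.log (G y)) := by
  filter_upwards [pos_ev hG h0] with y hy
  rw [Fk, ps, Real.exp_log hy]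

theorem Fk_ge (hw : IsKahler w) (hG : Wt w G B) {δ : ℝ} (hδ : 0 < δ) {e : Chart n X} {x : X}
    (hx : At e x) (h0 : G x ≠ 0) :
    ps2 δ (Real.log (G x)) * RK G w e (e x) ≤
      BB (Ak w) (Fk G δ) e (e x) + B * n * dk w e (e x) := by
  have h := pr_compk hG.smooth hx h0 (Fk_eq (δ := δ) hG h0)
    (Eventually.of_forall fun s => ps_deriv hδ s) (ps_deriv2 hδ _) (Ak w e (e x))
  have h3 := congrArg Complex.re h
  rw [Complex.add_re, Complex.re_ofReal_mul, Complex.re_ofReal_mul] at h3
  have h4 := psd_bd (Ak_psd hw hx) (hG.bd e x hx h0)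
  rw [Ak_w e x] at h4
  have h5 := ps1_le hδ (Real.log (G x))
  have h6 := ps1_nonneg hδ (Real.log (G x))
  have h7 := (abs_le.1 h4).1
  have h8 : 0 ≤ B * (n * dk w e (e x)) := (abs_nonneg _).trans h4
  have h9 : -(B * (n * dk w e (e x))) ≤ ps1 δ (Real.log (G x)) *
      (pr (Ak w e (e x)) (cHess (fun y => Real.log (G (e.symm y))) (e x))).re := by
    nlinarith
  unfold BB RK
  rw [h3]
  linarith

theorem Fk_nonneg (hw : IsKahler w) (hG : Wt w G B) {δ : ℝ} (hδ : 0 < δ)
    {e : Chart n X} {x : X} (hx : At e x) :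
    0 ≤ BB (Ak w) (Fk G δ) e (e x) + B * n * dk w e (e x) := by
  have hD : IsDensity (fun e z => BB (Ak w) (Fk G δ) e z + B * n * dk w e z) :=
    (BB_density (Ak_TF hw) (Fk_smooth hG hδ) (by simp)).add ((dk_density hw).const_mul (B * n))
  have hc := hD.cont e x hx
  by_contra hcon
  push Not at hcon
  have h1 := hc.eventually_lt continuousAt_const hcon
  by_cases hdn : ∃ᶠ z in 𝓝 (e x), G (e.symm z) ≠ 0
  · obtain ⟨z, hz1, hz2, hz3⟩ := (hdn.and_eventually (h1.and (hx.nhds_at hx))).exists
    have h2 := Fk_ge hw hG hδ hz3.2.1 hz1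
    have h3 := RK_nonneg (G := G) hw hz3.2.1
    have h4 := ps2_nonneg hδ (Real.log (G (e.symm z)))
    rw [e.right_inv hz3.1] at h2 h3
    have h5 := mul_nonneg h4 h3
    linarith
  · rw [not_frequently] at hdn
    have h2 : (fun y => Fk G δ (e.symm y)) =ᶠ[𝓝 (e x)] fun _ => Real.log δ := by
      filter_upwards [hdn] with y hy
      have : G (e.symm y) = 0 := by simpa using hy
      rw [Fk, this, zero_add]
    have h3 : BB (Ak w) (Fk G δ) e (e x) = 0 := by
      unfold BB
      rw [C2.cHess_congr h2, C2.cHess_const]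
      simp [pr]
    rw [h3] at hcon
    have h4 := (dk_pos hw hx).le
    have h5 : 0 ≤ B * n * dk w e (e x) := mul_nonneg (mul_nonneg hG.B0 (by positivity)) h4
    linarith

/-! ### the cut-off -/

/-- the cut-off function -/
def ck (G : X → ℝ) (j : ℕ) (x : X) : ℝ := cut j (G x)

omit [IsManifold 𝓘(ℂ, Cm n) ω X] in
theorem ck_smooth (hG : Wt w G B) {j : ℕ} (hj : 0 < j) : SmoothFn (n := n) (ck G j) := by
  intro e x hx
  exact (cut_contDiff hj).contDiffAt.comp (e x) (hG.smooth e x hx)

theorem ck_near_zero (hG : Wt w G B) {j : ℕ} (hj : 0 < j) {x : X}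
    (h0 : G x = 0) : x ∉ tsupport (ck G j) := by
  rw [notMem_tsupport_iff_eventuallyEq]
  have h1 : ∀ᶠ y in 𝓝 x, G y < Real.exp (-(2 * j)) := by
    refine hG.cont.continuousAt.eventually_lt continuousAt_const ?_
    rw [h0]; exact Real.exp_pos _
  filter_upwards [h1] with y hy
  exact cut_zero hj hy

/-- the zero set of the weight -/
def ZG (G : X → ℝ) : Set X := {x | G x = 0}

theorem ck_disj (hG : Wt w G B) {j : ℕ} (hj : 0 < j) :
    tsupport (ck G j) ∩ ZG G = ∅ := by
  ext x
  simp only [mem_inter_iff, mem_empty_iff_false, iff_false, not_and]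
  intro h1 h2
  exact ck_near_zero hG hj h2 h1

theorem ck_eq (hG : Wt w G B) {j : ℕ} {x : X} (h0 : G x ≠ 0) :
    ∀ᶠ y in 𝓝 x, ck G j y = TT j (Real.log (G y)) := by
  filter_upwards [pos_ev hG h0] with y hy
  exact cut_eq hy

variable {A : Chart n X → Cm n → Matrix (Fin n) (Fin n) ℂ} {C K : ℝ}

/-- the majorant -/
def MajK (G : X → ℝ) (w : Chart n X → Cm n → Matrix (Fin n) (Fin n) ℂ) (B C K : ℝ) (j : ℕ)
    (e : Chart n X) (z : Cm n) : ℝ :=
  (B * K * C / j) * dk w e z + (16 * K * C / j ^ 2) *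
    ∑ i ∈ Finset.range (j + 1), (BB (Ak w) (Fk G (Real.exp (-((j + i : ℕ) : ℝ)))) e z +
      B * n * dk w e z)

theorem MajK_density (hw : IsKahler w) (hG : Wt w G B) (j : ℕ) :
    IsDensity (MajK G w B C K j) := by
  refine ((dk_density hw).const_mul _).add (IsDensity.const_mul (IsDensity.sum _ fun i _ => ?_) _)
  exact (BB_density (Ak_TF hw) (Fk_smooth hG (Real.exp_pos _)) (by simp)).add
    ((dk_density hw).const_mul (B * n))

theorem BB_le_MajK (hw : IsKahler w) (hG : Wt w G B) (hC : 0 ≤ C) (hK0 : 0 ≤ K)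
    (hK : ∀ t, |deriv sT t| ≤ K ∧ |deriv (deriv sT) t| ≤ K)
    (hpsd : ∀ e x, At e x → G x ≠ 0 → (A e (e x)).PosSemidef)
    (hb : ∀ e x, At e x → G x ≠ 0 → (pr (A e (e x)) (w e (e x))).re ≤ C * dk w e (e x))
    {j : ℕ} (hj : 0 < j) {e : Chart n X} {x : X} (hx : At e x) :
    BB A (ck G j) e (e x) ≤ MajK G w B C K j e (e x) := by
  have hj' : (0 : ℝ) < j := by exact_mod_cast hj
  have hB0 := hG.B0
  have hdk := (dk_pos hw hx).le
  have hsum : ∀ i ∈ Finset.range (j + 1), 0 ≤
      BB (Ak w) (Fk G (Real.exp (-((j + i : ℕ) : ℝ)))) e (e x) + B * n * dk w e (e x) :=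
    fun i _ => Fk_nonneg hw hG (Real.exp_pos _) hx
  have hMaj0 : 0 ≤ (16 * K * C / j ^ 2) *
    ∑ i ∈ Finset.range (j + 1), (BB (Ak w) (Fk G (Real.exp (-((j + i : ℕ) : ℝ)))) e (e x) +
      B * n * dk w e (e x)) := mul_nonneg (by positivity) (Finset.sum_nonneg hsum)
  by_cases h0 : G x = 0
  · have h1 : BB A (ck G j) e (e x) = 0 := by
      unfold BB
      rw [(cHess_off hx (ck_near_zero hG hj h0)).self_of_nhds]
      simp [pr]
    rw [h1, MajK]
    have : 0 ≤ (B * K * C / j) * dk w e (e x) := by positivity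
    linarith
  · have h := pr_compk hG.smooth hx h0 (ck_eq (j := j) hG h0)
      (Eventually.of_forall fun s => TT_deriv j s) (TT_deriv2 j _) (A e (e x))
    have h' := congrArg Complex.re h
    rw [Complex.add_re, Complex.re_ofReal_mul, Complex.re_ofReal_mul] at h'
    have hge : ∀ i : ℕ, ps2 (Real.exp (-((j + i : ℕ) : ℝ))) (Real.log (G x)) *
        RK G w e (e x) ≤ BB (Ak w) (Fk G (Real.exp (-((j + i : ℕ) : ℝ)))) e (e x) +
          B * n * dk w e (e x) := fun i => Fk_ge hw hG (Real.exp_pos _) hx h0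
    have hA := hpsd e x hx h0
    have hAw := hb e x hx h0
    have ha' : |(pr (A e (e x)) (cHess (fun y => Real.log (G (e.symm y))) (e x))).re| ≤
        B * (C * dk w e (e x)) :=
      (psd_bd hA (hG.bd e x hx h0)).trans (mul_le_mul_of_nonneg_left hAw hG.B0)
    generalize Real.log (G x) = u at h' hge
    set ξ := gk G e (e x) with hξ
    have hRR := RK_nonneg (G := G) hw hx
    have hb' : |(pr (A e (e x)) (Matrix.vecMulVec ξ (star ξ))).re| ≤ C * RK G w e (e x) := by
      rw [abs_of_nonneg (psd_rank_nonneg hA ξ)]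
      refine le_of_mul_le_mul_right ?_ (dk_pos hw hx)
      refine (psd_cs (hw.posDef e x hx) hA ξ).trans ?_
      calc (pr (A e (e x)) (w e (e x))).re *
            (pr ((w e (e x)).adjugate)ᵀ (Matrix.vecMulVec ξ (star ξ))).re
          ≤ (C * dk w e (e x)) * RK G w e (e x) := mul_le_mul_of_nonneg_right hAw hRR
        _ = _ := by ring
    obtain ⟨hK1, hK2⟩ := hK (u / j + 2)
    by_cases hin : u / j + 2 ∈ Icc (0 : ℝ) 1
    · -- the gradient term
      have hu1 : (j : ℝ) ≤ -u := by
        have h3 := hin.2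
        have h4 : u / j ≤ -1 := by linarith
        rw [div_le_iff₀ hj'] at h4; linarith
      have hu2 : -u ≤ 2 * j := by
        have h3 := hin.1
        have h4 : -2 ≤ u / j := by linarith
        rw [le_div_iff₀ hj'] at h4; linarith
      obtain ⟨m, hm1, hm2, hmj, hm2j⟩ : ∃ m : ℕ, -(m : ℝ) ≤ u ∧ u ≤ -(m : ℝ) + 1 ∧ j ≤ m ∧
          m ≤ 2 * j := by
        refine ⟨⌈-u⌉₊, ?_, ?_, ?_, ?_⟩
        · have := Nat.le_ceil (-u); linarith
        · have := Nat.ceil_lt_add_one (show 0 ≤ -u by linarith); linarith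
        · have h1 := Nat.le_ceil (-u)
          have : (j : ℝ) ≤ ⌈-u⌉₊ := by linarith
          exact_mod_cast this
        · rw [Nat.ceil_le]; push_cast; exact hu2
      have hRRle : RK G w e (e x) ≤ 16 * ∑ i ∈ Finset.range (j + 1),
          (BB (Ak w) (Fk G (Real.exp (-((j + i : ℕ) : ℝ)))) e (e x) +
            B * n * dk w e (e x)) := by
        have h5 := Finset.single_le_sum hsum (show m - j ∈ Finset.range (j + 1) by
          rw [Finset.mem_range]; omega)
        have h6 := hge (m - j)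
        have h7 : j + (m - j) = m := by omega
        rw [h7] at h5 h6
        have h8 := ps2_lower hm1 hm2
        have h9 := mul_le_mul_of_nonneg_right h8 hRR
        linarith
      have t1 : deriv sT (u / j + 2) * (1 / j) *
            (pr (A e (e x)) (cHess (fun y => Real.log (G (e.symm y))) (e x))).re ≤
            (B * K * C / j) * dk w e (e x) := by
        refine (le_abs_self _).trans ?_
        rw [abs_mul, abs_mul, abs_of_pos (show (0 : ℝ) < 1 / j by positivity)]
        calc |deriv sT (u / j + 2)| * (1 / j) *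
              |(pr (A e (e x)) (cHess (fun y => Real.log (G (e.symm y))) (e x))).re|
            ≤ (K * (1 / j)) * (B * (C * dk w e (e x))) := by
              gcongr
          _ = _ := by ring
      have t2 : deriv (deriv sT) (u / j + 2) * (1 / j) * (1 / j) *
          (pr (A e (e x)) (Matrix.vecMulVec ξ (star ξ))).re ≤
          (K * C / j ^ 2) * RK G w e (e x) := by
        refine (le_abs_self _).trans ?_
        rw [abs_mul, abs_mul, abs_mul, abs_of_pos (show (0 : ℝ) < 1 / j by positivity)]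
        calc |deriv (deriv sT) (u / j + 2)| * (1 / j) * (1 / j) *
              |(pr (A e (e x)) (Matrix.vecMulVec ξ (star ξ))).re|
            ≤ K * (1 / j) * (1 / j) * (C * RK G w e (e x)) := by
              gcongr
          _ = _ := by ring
      have t3 : (K * C / j ^ 2) * RK G w e (e x) ≤ (16 * K * C / j ^ 2) *
          ∑ i ∈ Finset.range (j + 1),
          (BB (Ak w) (Fk G (Real.exp (-((j + i : ℕ) : ℝ)))) e (e x) +
            B * n * dk w e (e x)) := by
        calc _ ≤ (K * C / j ^ 2) * (16 * ∑ i ∈ Finset.range (j + 1),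
          (BB (Ak w) (Fk G (Real.exp (-((j + i : ℕ) : ℝ)))) e (e x) +
            B * n * dk w e (e x))) := mul_le_mul_of_nonneg_left hRRle (by positivity)
          _ = _ := by ring
      have h10 : BB A (ck G j) e (e x) = _ := h'
      rw [h10, MajK]
      linarith
    · obtain ⟨h5, h6⟩ := deriv_off' hin
      rw [h5, h6] at h'
      have h7 : BB A (ck G j) e (e x) = 0 := by
        unfold BB
        rw [h']
        simp
      rw [h7, MajK]
      have : 0 ≤ (B * K * C / j) * dk w e (e x) := by positivity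
      linarith

section
variable [T2Space X] [CompactSpace X]

theorem intX_MajK (hw : IsKahler w) (hG : Wt w G B) (j : ℕ) :
    intX (MajK G w B C K j) = (B * K * C / j) * intX (dk w) +
      (16 * K * C / j ^ 2) * ((j + 1) * (B * n * intX (dk w))) := by
  have h0 : ∀ i : ℕ, IsDensity fun e z => BB (Ak w) (Fk G (Real.exp (-((j + i : ℕ) : ℝ)))) e z +
      B * n * dk w e z := fun i =>
    (BB_density (Ak_TF hw) (Fk_smooth hG (Real.exp_pos _)) (by simp)).add
    ((dk_density hw).const_mul (B * n))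
  have h1 : ∀ i : ℕ, intX (fun e z => BB (Ak w) (Fk G (Real.exp (-((j + i : ℕ) : ℝ)))) e z +
      B * n * dk w e z) = B * n * intX (dk w) := by
    intro i
    rw [intX_add (BB_density (Ak_TF hw) (Fk_smooth hG (Real.exp_pos _)) (by simp))
      ((dk_density hw).const_mul (B * n)), intX_const_mul, intX_Ak hw (Fk_smooth hG (Real.exp_pos _)),
      zero_add]
  unfold MajK
  rw [intX_add ((dk_density hw).const_mul _) (IsDensity.const_mul (IsDensity.sum _ fun i _ => h0 i) _),
    intX_const_mul, intX_const_mul, intX_sum _ fun i _ => h0 i]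
  rw [Finset.sum_congr rfl fun i _ => h1 i, Finset.sum_const, Finset.card_range, nsmul_eq_mul,
    Nat.cast_add, Nat.cast_one]

/-- **The vanishing theorem**, Kaehler version. -/
theorem DD_zeroK (hw : IsKahler w) (hG : Wt w G B) (hC : 0 ≤ C) (hA : TF (ZG G) A)
    (hpsd : ∀ e x, At e x → G x ≠ 0 → (A e (e x)).PosSemidef)
    (hb : ∀ e x, At e x → G x ≠ 0 → (pr (A e (e x)) (w e (e x))).re ≤ C * dk w e (e x))
    (hDD : ∀ e x, At e x → G x ≠ 0 → 0 ≤ (DD (A e) (e x)).re)
    {x : X} (hx0 : G x ≠ 0) {i : Fin (part n X).N} (hi : 0 < (part n X).ρ i x) :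
    (DD (A ((part n X).e i)) ((part n X).e i x)).re = 0 := by
  obtain ⟨K, hK0, hK⟩ := exists_bound
  have hB0 := hG.B0
  set e := (part n X).e i with he
  have hxs : x ∈ e.source := (part n X).supp i (subset_tsupport _ (by
    simp only [Function.mem_support]; exact hi.ne'))
  have hx : At e x := ⟨(part n X).mem i, hxs⟩
  by_contra hne
  have hp0 : 0 < (DD (A e) (e x)).re := lt_of_le_of_ne (hDD e x hx hx0) (Ne.symm hne)
  have hG0 : 0 < G x := lt_of_le_of_ne (hG.nonneg x) (Ne.symm hx0)
  set F : Cm n → ℝ := fun z => (DD (A e) z).re * (part n X).ρ i (e.symm z) with hF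
  have hFc : ContinuousAt F (e x) := by
    refine ContinuousAt.mul ?_ (((part n X).smooth i e x hx).continuousAt)
    refine Complex.continuous_re.continuousAt.comp ?_
    unfold DD
    exact tendsto_finsetSum _ fun j _ => tendsto_finsetSum _ fun k _ =>
      (INT.smooth_dz (INT.smooth_dzb (hA.smooth e x hx hx0 j k))).continuousAt
  have hF0 : 0 < F (e x) := by
    rw [hF]
    simp only
    rw [e.left_inv hxs]
    exact mul_pos hp0 hi
  have hGc : ContinuousAt (fun z => G (e.symm z)) (e x) := (hG.smooth e x hx).continuousAt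
  have hGv : G x / 2 < G (e.symm (e x)) := by rw [e.left_inv hxs]; linarith
  have hev : ∀ᶠ z in 𝓝 (e x), z ∈ e.target ∧ F (e x) / 2 < F z ∧
      G x / 2 < G (e.symm z) := by
    filter_upwards [e.open_target.mem_nhds (e.map_source hxs),
      continuousAt_const.eventually_lt hFc (show F (e x) / 2 < F (e x) by linarith),
      continuousAt_const.eventually_lt hGc hGv] with z h1 h2 h3
    exact ⟨h1, h2, h3⟩
  obtain ⟨r, hr, hball⟩ := Metric.eventually_nhds_iff_ball.1 hev
  have hvol : 0 < (volume : Measure (Cm n)).real (Metric.ball (e x) r) :=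
    ENNReal.toReal_pos (Metric.measure_ball_pos volume _ hr).ne' measure_ball_lt_top.ne
  set c : ℝ := F (e x) / 2 * (volume : Measure (Cm n)).real (Metric.ball (e x) r) with hc
  have hc0 : 0 < c := by positivity
  have key : ∀ j : ℕ, 0 < j → Real.exp (-(j : ℝ)) ≤ G x / 2 →
      c ≤ intX (MajK G w B C K j) := by
    intro j hj hjG
    have hch := ck_smooth hG hj
    have hdis := ck_disj hG hj
    have k1 : intX (BB A (ck G j)) ≤ intX (MajK G w B C K j) :=
      intX_mono (BB_density hA hch hdis) (MajK_density hw hG j) fun e x hx =>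
        BB_le_MajK hw hG hC hK0 hK hpsd hb hj hx
    refine le_trans ?_ k1
    rw [BB_total hA hch hdis]
    -- the terms are nonnegative
    have hnn : ∀ i', ∀ z ∈ ((part n X).e i').target, 0 ≤ (DD (A ((part n X).e i')) z).re *
        ((part n X).ρ i' (((part n X).e i').symm z) * ck G j (((part n X).e i').symm z)) := by
      intro i' z hz
      have hz' : At ((part n X).e i') (((part n X).e i').symm z) := ⟨(part n X).mem i', ((part n X).e i').map_target hz⟩
      by_cases h0 : G (((part n X).e i').symm z) = 0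
      · have : ck G j (((part n X).e i').symm z) = 0 :=
          image_eq_zero_of_notMem_tsupport (ck_near_zero hG hj h0)
        rw [this, mul_zero, mul_zero]
      · have h1 := hDD _ _ hz' h0
        rw [((part n X).e i').right_inv hz] at h1
        exact mul_nonneg h1 (mul_nonneg ((part n X).nonneg i' _) (cut_nonneg _ _))
    have hsum : ∫ z in ((part n X).e i).target, (DD (A ((part n X).e i)) z).re *
        ((part n X).ρ i (((part n X).e i).symm z) * ck G j (((part n X).e i).symm z)) ≤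
        ∑ i', ∫ z in ((part n X).e i').target, (DD (A ((part n X).e i')) z).re *
        ((part n X).ρ i' (((part n X).e i').symm z) * ck G j (((part n X).e i').symm z)) :=
      Finset.single_le_sum (f := fun i' => ∫ z in ((part n X).e i').target, (DD (A ((part n X).e i')) z).re *
        ((part n X).ρ i' (((part n X).e i').symm z) * ck G j (((part n X).e i').symm z)))
        (fun i' _ => setIntegral_nonneg ((part n X).e i').open_target.measurableSet (hnn i'))
        (Finset.mem_univ i)
    refine le_trans ?_ hsum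
    have hint : IntegrableOn (fun z => (DD (A e) z).re *
        ((fun y => (part n X).ρ i y * ck G j y) (e.symm z))) e.target :=
      DD_integrable hA (χ := fun y => (part n X).ρ i y * ck G j y) (SmoothFn.mul ((part n X).smooth i) hch)
        (inter_empty hdis) hx.1 (tsupport_mul_subset_left'.trans ((part n X).supp i))
    have hsub : Metric.ball (e x) r ⊆ e.target := fun z hz => (hball z hz).1
    have h2 : ∫ z in Metric.ball (e x) r, (DD (A e) z).re * ((part n X).ρ i (e.symm z) * ck G j (e.symm z))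
        ≤ ∫ z in e.target, (DD (A e) z).re * ((part n X).ρ i (e.symm z) * ck G j (e.symm z)) := by
      refine setIntegral_mono_set hint ?_ (Eventually.of_forall hsub)
      filter_upwards [self_mem_ae_restrict e.open_target.measurableSet] with z hz
      exact hnn i z hz
    refine le_trans ?_ h2
    have h3 : ∫ _z in Metric.ball (e x) r, F (e x) / 2 = c := by
      rw [setIntegral_const, smul_eq_mul, mul_comm]
    rw [← h3]
    refine setIntegral_mono_on (integrableOn_const measure_ball_lt_top.ne) (hint.mono_set hsub)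
      measurableSet_ball fun z hz => ?_
    obtain ⟨g1, g2, g3⟩ := hball z hz
    have g4 : ck G j (e.symm z) = 1 := cut_one hj (hjG.trans g3.le)
    show F (e x) / 2 ≤ (DD (A e) z).re * ((part n X).ρ i (e.symm z) * ck G j (e.symm z))
    rw [g4, mul_one]
    exact g2.le
  -- the limit
  set V := intX (dk w) with hV
  have hV0 : 0 ≤ V := intX_nonneg fun e x hx => (dk_pos hw hx).le
  set D : ℝ := B * K * C * V + 32 * K * C * (B * n * V) with hD
  have hD0 : 0 ≤ D := by positivity
  have hup : ∀ j : ℕ, 0 < j → intX (MajK G w B C K j) ≤ D / j := by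
    intro j hj
    have hj' : (0 : ℝ) < j := by exact_mod_cast hj
    have hj1 : (1 : ℝ) ≤ j := by exact_mod_cast hj
    rw [intX_MajK hw hG j, ← hV, le_div_iff₀ hj', hD]
    have h1 : (B * K * C / j * V + 16 * K * C / j ^ 2 * ((j + 1) * (B * n * V))) * j =
        B * K * C * V + 16 * K * C * (B * n * V) * ((j + 1) / j) := by
      field_simp
    rw [h1]
    have h2 : ((j : ℝ) + 1) / j ≤ 2 := by
      rw [div_le_iff₀ hj']; linarith
    have h3 : 0 ≤ 16 * K * C * (B * n * V) := by positivity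
    nlinarith [mul_le_mul_of_nonneg_left h2 h3]
  obtain ⟨j1, hj1⟩ := exists_nat_gt (-(Real.log (G x / 2)))
  obtain ⟨j2, hj2⟩ := exists_nat_gt (D / c)
  set j := max 1 (max j1 j2) with hj
  have hjp : 0 < j := lt_of_lt_of_le one_pos (le_max_left _ _)
  have hj1' : (j1 : ℝ) ≤ j := by exact_mod_cast (le_max_left _ _).trans (le_max_right _ _)
  have hj2' : (j2 : ℝ) ≤ j := by exact_mod_cast (le_max_right _ _).trans (le_max_right _ _)
  have g1 : Real.exp (-(j : ℝ)) ≤ G x / 2 := by
    rw [← Real.le_log_iff_exp_le (by linarith)]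
    linarith
  have g2 := (key j hjp g1).trans (hup j hjp)
  have hj' : (0 : ℝ) < j := by exact_mod_cast hjp
  rw [le_div_iff₀ hj'] at g2
  have g3 : D / c < j := hj2.trans_le hj2'
  rw [div_lt_iff₀ hc0] at g3
  linarith

end

end Vale.Agent.P284.H279.K
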