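import Vale.Agent.P284.H279.K.IBP0

/-!
# P284 (helper279), module K2: integration by parts on open subsets of `ℂⁿ`

`K1Stmt → K2AdjStmt`, `K1Stmt → K2BKStmt`, `K1Stmt → K2BK0Stmt`.
-/

open scoped ContDiff Topology ComplexConjugate ComplexOrder
open Filter Set MeasureTheory

noncomputable section

namespace Vale.Agent.P284.H279.K

open Vale.Agent.P272.K Vale.Agent.P284.H608.K

variable {n p P : ℕ}

/-- the sign -/
abbrev sg (σ : Equiv.Perm (Fin n)) : ℂ := ((Equiv.Perm.sign σ : ℤ) : ℂ)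

theorem Wp_smooth {w : Cm n → Matrix (Fin n) (Fin n) ℂ} {z : Cm n}
    (hw : ∀ j k, ContDiffAt ℝ ∞ (fun y => w y j k) z) (P : ℕ) (σ τ : Fin n → Fin n) :
    ContDiffAt ℝ 1 (fun y => Wp (w y) P σ τ) z :=
  ContDiffAt.of_le (n := ∞) (contDiffAt_prod fun k _ => hw (σ k) (τ k)) (by exact_mod_cast le_top)

theorem ev_posDef {O : Set (Cm n)} (hO : IsOpen O) {w : Cm n → Matrix (Fin n) (Fin n) ℂ}
    (hw : KOn O w) {z : Cm n} (hz : z ∈ O) : ∀ᶠ y in 𝓝 z, (w y).IsHermitian := by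
  filter_upwards [hO.mem_nhds hz] with y hy
  exact (hw.pos y hy).isHermitian

/-- the Bochner-Kodaira identity for sums over permutations -/
theorem bk_sum (hp : P + 1 ≤ n) {O C : Set (Cm n)} (hO : IsOpen O) (hC : IsCompact C)
    (hCO : C ⊆ O) {w : Cm n → Matrix (Fin n) (Fin n) ℂ} (hw : KOn O w) {φ : Cm n → ℝ}
    (hφ : ∀ z ∈ O, ContDiffAt ℝ ∞ φ z) {h k : (Fin P → Fin n) → Cm n → ℂ}
    (hh : ∀ s, ∀ z ∈ O, ContDiffAt ℝ ∞ (h s) z) (hk : ∀ s, ∀ z ∈ O, ContDiffAt ℝ ∞ (k s) z)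
    (hk0 : ∀ s, ∀ z ∉ C, k s z = 0) :
    ∫ z in O, EE φ z * (
      Qp hp (w z) (fun s t => Dc φ (s 0) (h fun i => s i.succ) z *
        conj (Dc φ (t 0) (k fun i => t i.succ) z)) -
      Qp hp (w z) (fun s t => cHess φ z (s 0) (t 0) * (h (fun i => s i.succ) z *
        conj (k (fun i => t i.succ) z))) -
      Qp hp (w z) (fun s t => dzb (t 0) (h fun i => s i.succ) z *
        conj (dzb (s 0) (k fun i => t i.succ) z))) = 0 := by
  have two : (2 : WithTop ℕ∞) ≤ ∞ := by norm_cast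
  have one : (1 : WithTop ℕ∞) ≤ ∞ := by norm_cast
  set H1 : Equiv.Perm (Fin n) → Equiv.Perm (Fin n) → Cm n → ℂ := fun σ τ y =>
    (EE φ y * h (fun i => σ (Fin.castLE hp i.succ)) y *
      conj (Dc φ (τ (Fin.castLE hp 0)) (k fun i => τ (Fin.castLE hp i.succ)) y)) *
      Wp (w y) P σ τ with hH1
  set H2 : Equiv.Perm (Fin n) → Equiv.Perm (Fin n) → Cm n → ℂ := fun σ τ y =>
    (EE φ y * h (fun i => σ (Fin.castLE hp i.succ)) y *
      conj (dzb (σ (Fin.castLE hp 0)) (k fun i => τ (Fin.castLE hp i.succ)) y)) *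
      Wp (w y) P σ τ with hH2
  have hE : ∀ z ∈ O, ContDiffAt ℝ 1 (EE φ) z := fun z hz => EE_smooth ((hφ z hz).of_le one)
  have hD : ∀ a s, ∀ z ∈ O, ContDiffAt ℝ 1 (Dc φ a (k s)) z := fun a s z hz =>
    Dc_diff ((hφ z hz).of_le two) ((hk s z hz).of_le two) a
  have hB : ∀ a s, ∀ z ∈ O, ContDiffAt ℝ 1 (dzb a (k s)) z := fun a s z hz =>
    C2.contDiffAt_dzb a ((hk s z hz).of_le two) (by norm_num)
  have u1 : ∀ a s s', ∀ z ∈ O, ContDiffAt ℝ 1 (fun y => EE φ y * h s y * conj (Dc φ a (k s') y)) z :=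
    fun a s s' z hz => ((hE z hz).mul ((hh s z hz).of_le one)).mul (C2.contDiffAt_conj (hD a s' z hz))
  have u2 : ∀ a s s', ∀ z ∈ O, ContDiffAt ℝ 1 (fun y => EE φ y * h s y * conj (dzb a (k s') y)) z :=
    fun a s s' z hz => ((hE z hz).mul ((hh s z hz).of_le one)).mul (C2.contDiffAt_conj (hB a s' z hz))
  have s1 : ∀ σ τ, ∀ z ∈ O, ContDiffAt ℝ 1 (H1 σ τ) z := fun σ τ z hz =>
    (u1 _ _ _ z hz).mul (Wp_smooth (hw.sm z hz) P σ τ)
  have s2 : ∀ σ τ, ∀ z ∈ O, ContDiffAt ℝ 1 (H2 σ τ) z := fun σ τ z hz =>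
    (u2 _ _ _ z hz).mul (Wp_smooth (hw.sm z hz) P σ τ)
  have z1 : ∀ σ τ, ∀ z ∉ C, H1 σ τ z = 0 := by
    intro σ τ z hz
    rw [hH1]
    simp only
    rw [Dc, (dz_off' hC (hk0 _) _ z hz).1, hk0 _ z hz]
    simp
  have z2 : ∀ σ τ, ∀ z ∉ C, H2 σ τ z = 0 := by
    intro σ τ z hz
    rw [hH2]
    simp only
    rw [(dz_off' hC (hk0 _) _ z hz).2]
    simp
  have i1 := fun σ τ => int_dz hC hCO (s1 σ τ) (z1 σ τ) (σ (Fin.castLE hp 0))
  have i2 := fun σ τ => int_dzb hC hCO (s2 σ τ) (z2 σ τ) (τ (Fin.castLE hp 0))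
  have key : ∀ z ∈ O, EE φ z * (
      Qp hp (w z) (fun s t => Dc φ (s 0) (h fun i => s i.succ) z *
        conj (Dc φ (t 0) (k fun i => t i.succ) z)) -
      Qp hp (w z) (fun s t => cHess φ z (s 0) (t 0) * (h (fun i => s i.succ) z *
        conj (k (fun i => t i.succ) z))) -
      Qp hp (w z) (fun s t => dzb (t 0) (h fun i => s i.succ) z *
        conj (dzb (s 0) (k fun i => t i.succ) z))) =
      ∑ σ, ∑ τ, (sg σ * sg τ) * (dz (σ (Fin.castLE hp 0)) (H1 σ τ) z -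
        dzb (τ (Fin.castLE hp 0)) (H2 σ τ) z) := by
    intro z hz
    have hM : ∀ j k, DifferentiableAt ℝ (fun y => w y j k) z := fun j k =>
      (hw.sm z hz j k).differentiableAt (by simp)
    have l1 : ∑ σ, ∑ τ, (sg σ * sg τ) * dz (σ (Fin.castLE hp 0)) (H1 σ τ) z =
        ∑ σ, ∑ τ, (sg σ * sg τ) * (dz (σ (Fin.castLE hp 0)) (fun y =>
          EE φ y * h (fun i => σ (Fin.castLE hp i.succ)) y *
          conj (Dc φ (τ (Fin.castLE hp 0)) (k fun i => τ (Fin.castLE hp i.succ)) y)) z *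
          Wp (w z) P σ τ) := by
      rw [Finset.sum_comm]
      conv_rhs => rw [Finset.sum_comm]
      refine Finset.sum_congr rfl fun τ _ => ?_
      have h1 := leib_dz hp hM (hw.cl z hz) (fun s y => EE φ y * h s y *
        conj (Dc φ (τ (Fin.castLE hp 0)) (k fun i => τ (Fin.castLE hp i.succ)) y))
        (fun s => (u1 _ _ _ z hz).differentiableAt (by norm_num)) τ
      have h2 : ∀ f : Equiv.Perm (Fin n) → ℂ, ∑ σ, (sg σ * sg τ) * f σ = sg τ * ∑ σ, sg σ * f σ := by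
        intro f
        rw [Finset.mul_sum]
        exact Finset.sum_congr rfl fun σ _ => by ring
      rw [h2, h2]
      exact congrArg (fun x => sg τ * x) h1
    have l2 : ∑ σ, ∑ τ, (sg σ * sg τ) * dzb (τ (Fin.castLE hp 0)) (H2 σ τ) z =
        ∑ σ, ∑ τ, (sg σ * sg τ) * (dzb (τ (Fin.castLE hp 0)) (fun y =>
          EE φ y * h (fun i => σ (Fin.castLE hp i.succ)) y *
          conj (dzb (σ (Fin.castLE hp 0)) (k fun i => τ (Fin.castLE hp i.succ)) y)) z *
          Wp (w z) P σ τ) := by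
      refine Finset.sum_congr rfl fun σ _ => ?_
      have h1 := leib_dzb hp hM (fun j k l => cl_conj (ev_posDef hO hw hz) (hw.cl z hz) j k l)
        (fun s y => EE φ y * h (fun i => σ (Fin.castLE hp i.succ)) y *
        conj (dzb (σ (Fin.castLE hp 0)) (k s) y))
        (fun s => (u2 _ _ _ z hz).differentiableAt (by norm_num)) σ
      have h2 : ∀ f : Equiv.Perm (Fin n) → ℂ, ∑ τ, (sg σ * sg τ) * f τ = sg σ * ∑ τ, sg τ * f τ := by
        intro f
        rw [Finset.mul_sum]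
        exact Finset.sum_congr rfl fun σ _ => by ring
      rw [h2, h2]
      exact congrArg (fun x => sg σ * x) h1
    simp only [mul_sub, Finset.sum_sub_distrib]
    rw [l1, l2]
    unfold Qp
    simp only [Finset.mul_sum, ← Finset.sum_sub_distrib]
    refine Finset.sum_congr rfl fun σ _ => Finset.sum_congr rfl fun τ _ => ?_
    have h3 := scalar_bk (f := h fun i => σ (Fin.castLE hp i.succ))
      (g := k fun i => τ (Fin.castLE hp i.succ)) ((hφ z hz).of_le two)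
      ((hh (fun i => σ (Fin.castLE hp i.succ)) z hz).of_le one)
      ((hk (fun i => τ (Fin.castLE hp i.succ)) z hz).of_le two) (σ (Fin.castLE hp 0))
      (τ (Fin.castLE hp 0))
    have h4 : Wp (w z) P σ τ = ∏ k ∈ Finset.univ.filter (fun k : Fin n => P + 1 ≤ (k : ℕ)),
      w z (σ k) (τ k) := rfl
    rw [← h4]
    linear_combination (-(sg σ * sg τ) * Wp (w z) P σ τ) * h3
  rw [setIntegral_congr_fun hO.measurableSet fun z hz => key z hz]
  have i12 : ∀ σ τ, Integrable (fun z => sg σ * sg τ * (dz (σ (Fin.castLE hp 0)) (H1 σ τ) z -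
      dzb (τ (Fin.castLE hp 0)) (H2 σ τ) z)) (volume.restrict O) := fun σ τ =>
    ((i1 σ τ).1.sub (i2 σ τ).1).const_mul _
  rw [integral_finsetSum _ fun σ _ => integrable_finsetSum _ fun τ _ => i12 σ τ]
  refine Finset.sum_eq_zero fun σ _ => ?_
  rw [integral_finsetSum _ fun τ _ => i12 σ τ]
  refine Finset.sum_eq_zero fun τ _ => ?_
  rw [integral_const_mul, integral_sub (i1 σ τ).1 (i2 σ τ).1, (i1 σ τ).2, (i2 σ τ).2]
  simp

/-- adjointness for sums over permutations -/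
theorem adj_sum (hp : P + 1 ≤ n) {O C : Set (Cm n)} (hO : IsOpen O) (hC : IsCompact C)
    (hCO : C ⊆ O) {w : Cm n → Matrix (Fin n) (Fin n) ℂ} (hw : KOn O w) {φ : Cm n → ℝ}
    (hφ : ∀ z ∈ O, ContDiffAt ℝ ∞ φ z) {h : (Fin P → Fin n) → Cm n → ℂ}
    {g : (Fin (P + 1) → Fin n) → Cm n → ℂ}
    (hh : ∀ s, ∀ z ∈ O, ContDiffAt ℝ ∞ (h s) z) (hg : ∀ s, ∀ z ∈ O, ContDiffAt ℝ ∞ (g s) z)
    (h0 : (∀ s, ∀ z ∉ C, h s z = 0) ∨ ∀ s, ∀ z ∉ C, g s z = 0) :
    ∫ z in O, EE φ z * (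
      Qp hp (w z) (fun s t => Dc φ (s 0) (h fun i => s i.succ) z * conj (g t z)) +
      Qp hp (w z) (fun s t => h (fun i => s i.succ) z * conj (dzb (s 0) (g t) z))) = 0 := by
  have one : (1 : WithTop ℕ∞) ≤ ∞ := by norm_cast
  set H1 : Equiv.Perm (Fin n) → Equiv.Perm (Fin n) → Cm n → ℂ := fun σ τ y =>
    (EE φ y * h (fun i => σ (Fin.castLE hp i.succ)) y *
      conj (g (fun i => τ (Fin.castLE hp i)) y)) * Wp (w y) P σ τ with hH1
  have hE : ∀ z ∈ O, ContDiffAt ℝ 1 (EE φ) z := fun z hz => EE_smooth ((hφ z hz).of_le one)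
  have u1 : ∀ s s', ∀ z ∈ O, ContDiffAt ℝ 1 (fun y => EE φ y * h s y * conj (g s' y)) z :=
    fun s s' z hz => ((hE z hz).mul ((hh s z hz).of_le one)).mul
      (C2.contDiffAt_conj ((hg s' z hz).of_le one))
  have s1 : ∀ σ τ, ∀ z ∈ O, ContDiffAt ℝ 1 (H1 σ τ) z := fun σ τ z hz =>
    (u1 _ _ z hz).mul (Wp_smooth (hw.sm z hz) P σ τ)
  have z1 : ∀ σ τ, ∀ z ∉ C, H1 σ τ z = 0 := by
    intro σ τ z hz
    rw [hH1]
    simp only
    rcases h0 with h0 | h0
    · rw [h0 _ z hz]; simp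
    · rw [h0 _ z hz]; simp
  have i1 := fun σ τ => int_dz hC hCO (s1 σ τ) (z1 σ τ) (σ (Fin.castLE hp 0))
  have key : ∀ z ∈ O, EE φ z * (
      Qp hp (w z) (fun s t => Dc φ (s 0) (h fun i => s i.succ) z * conj (g t z)) +
      Qp hp (w z) (fun s t => h (fun i => s i.succ) z * conj (dzb (s 0) (g t) z))) =
      ∑ σ, ∑ τ, (sg σ * sg τ) * dz (σ (Fin.castLE hp 0)) (H1 σ τ) z := by
    intro z hz
    have hM : ∀ j k, DifferentiableAt ℝ (fun y => w y j k) z := fun j k =>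
      (hw.sm z hz j k).differentiableAt (by simp)
    have l1 : ∑ σ, ∑ τ, (sg σ * sg τ) * dz (σ (Fin.castLE hp 0)) (H1 σ τ) z =
        ∑ σ, ∑ τ, (sg σ * sg τ) * (dz (σ (Fin.castLE hp 0)) (fun y =>
          EE φ y * h (fun i => σ (Fin.castLE hp i.succ)) y *
          conj (g (fun i => τ (Fin.castLE hp i)) y)) z *
          Wp (w z) P σ τ) := by
      rw [Finset.sum_comm]
      conv_rhs => rw [Finset.sum_comm]
      refine Finset.sum_congr rfl fun τ _ => ?_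
      have h1 := leib_dz hp hM (hw.cl z hz) (fun s y => EE φ y * h s y *
        conj (g (fun i => τ (Fin.castLE hp i)) y))
        (fun s => (u1 _ _ z hz).differentiableAt (by norm_num)) τ
      have h2 : ∀ f : Equiv.Perm (Fin n) → ℂ, ∑ σ, (sg σ * sg τ) * f σ = sg τ * ∑ σ, sg σ * f σ := by
        intro f
        rw [Finset.mul_sum]
        exact Finset.sum_congr rfl fun σ _ => by ring
      rw [h2, h2]
      exact congrArg (fun x => sg τ * x) h1
    rw [l1]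
    unfold Qp
    simp only [Finset.mul_sum, ← Finset.sum_add_distrib]
    refine Finset.sum_congr rfl fun σ _ => Finset.sum_congr rfl fun τ _ => ?_
    have hφ1 : DifferentiableAt ℝ φ z := (hφ z hz).differentiableAt (by simp)
    have hE1 : DifferentiableAt ℝ (EE φ) z := (hE z hz).differentiableAt (by norm_num)
    have hh1 : ∀ s, DifferentiableAt ℝ (h s) z := fun s => (hh s z hz).differentiableAt (by simp)
    have hg1 : ∀ s, DifferentiableAt ℝ (g s) z := fun s => (hg s z hz).differentiableAt (by simp)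
    have h4 : Wp (w z) P σ τ = ∏ k ∈ Finset.univ.filter (fun k : Fin n => P + 1 ≤ (k : ℕ)),
      w z (σ k) (τ k) := rfl
    rw [← h4, INT.dz_mul (hE1.fun_mul (hh1 _)) (C2.differentiableAt_conj (hg1 _)),
      INT.dz_mul hE1 (hh1 _), INT.dz_conj, dz_EE hφ1]
    unfold Dc
    ring
  rw [setIntegral_congr_fun hO.measurableSet fun z hz => key z hz]
  rw [integral_finsetSum _ fun σ _ => integrable_finsetSum _ fun τ _ =>
    (i1 σ τ).1.const_mul _]
  refine Finset.sum_eq_zero fun σ _ => ?_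
  rw [integral_finsetSum _ fun τ _ => (i1 σ τ).1.const_mul _]
  refine Finset.sum_eq_zero fun τ _ => ?_
  rw [integral_const_mul, (i1 σ τ).2, mul_zero]

end Vale.Agent.P284.H279.K
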