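import Vale.Agent.P284.H279.K.Cl
import Vale.Agent.P272.K.C2.Wirt

/-!
# P284 (helper279), module K2: components, integration, scalar identities
-/

open scoped ContDiff Topology ComplexConjugate
open Filter Set MeasureTheory

noncomputable section

namespace Vale.Agent.P284.H279.K

open Vale.Agent.P272.K Vale.Agent.P284.H608.K

variable {n p P : ℕ}

/-! ### components -/

/-- the evaluation on basis vectors as a real linear map -/
def evR (s : Fin p → Fin n) : Af n p →L[ℝ] ℂ :=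
  (ContinuousAlternatingMap.apply ℂ (Cm n) ℂ fun i => Pi.single (s i) 1).restrictScalars ℝ

theorem evR_apply (s : Fin p → Fin n) (A : Af n p) : evR s A = ev A s := rfl

theorem ev_smooth {η : Cm n → Af n p} {z : Cm n} {m : WithTop ℕ∞} (h : ContDiffAt ℝ m η z)
    (s : Fin p → Fin n) : ContDiffAt ℝ m (fun y => ev (η y) s) z :=
  (evR s).contDiff.contDiffAt.comp z h

theorem ev_fderiv {η : Cm n → Af n p} {z : Cm n} (h : DifferentiableAt ℝ η z)
    (s : Fin p → Fin n) (v : Cm n) : fderiv ℝ (fun y => ev (η y) s) z v = ev (fderiv ℝ η z v) s := by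
  have h1 : fderiv ℝ (fun y => evR s (η y)) z = (evR s).comp (fderiv ℝ η z) :=
    ((evR s).hasFDerivAt.comp z h.hasFDerivAt).fderiv
  exact congrArg (fun L : Cm n →L[ℝ] ℂ => L v) h1

theorem ev_dzV {η : Cm n → Af n p} {z : Cm n} (h : DifferentiableAt ℝ η z)
    (s : Fin p → Fin n) (a : Fin n) : dz a (fun y => ev (η y) s) z = ev (dzV a η z) s := by
  rw [dz, ev_fderiv h, ev_fderiv h, dzV]
  show _ = (2 : ℂ)⁻¹ * (fderiv ℝ η z (Pi.single a 1) (fun i => Pi.single (s i) 1) -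
    Complex.I * fderiv ℝ η z (Pi.single a Complex.I) (fun i => Pi.single (s i) 1))
  rw [div_eq_inv_mul]
  rfl

theorem ev_dbV {η : Cm n → Af n p} {z : Cm n} (h : DifferentiableAt ℝ η z)
    (s : Fin p → Fin n) (a : Fin n) : dzb a (fun y => ev (η y) s) z = ev (dbV a η z) s := by
  rw [dzb, ev_fderiv h, ev_fderiv h, dbV]
  show _ = (2 : ℂ)⁻¹ * (fderiv ℝ η z (Pi.single a 1) (fun i => Pi.single (s i) 1) +
    Complex.I * fderiv ℝ η z (Pi.single a Complex.I) (fun i => Pi.single (s i) 1))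
  rw [div_eq_inv_mul]
  rfl

/-! ### integration -/

section
variable {O C : Set (Cm n)} {H : Cm n → ℂ}

theorem glob_contDiff (hC : IsCompact C) (hCO : C ⊆ O) (h1 : ∀ z ∈ O, ContDiffAt ℝ 1 H z)
    (h0 : ∀ z ∉ C, H z = 0) : ContDiff ℝ 1 H ∧ HasCompactSupport H := by
  refine ⟨?_, HasCompactSupport.intro hC h0⟩
  rw [contDiff_iff_contDiffAt]
  intro z
  by_cases hz : z ∈ O
  · exact h1 z hz
  · have : H =ᶠ[𝓝 z] fun _ => 0 := by
      filter_upwards [hC.isClosed.isOpen_compl.mem_nhds fun h => hz (hCO h)] with y hy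
      exact h0 y hy
    exact contDiffAt_const.congr_of_eventuallyEq this

theorem dz_off' (hC : IsCompact C) (h0 : ∀ z ∉ C, H z = 0) (i : Fin n) :
    ∀ z ∉ C, dz i H z = 0 ∧ dzb i H z = 0 := by
  intro z hz
  have : H =ᶠ[𝓝 z] fun _ => 0 := by
    filter_upwards [hC.isClosed.isOpen_compl.mem_nhds hz] with y hy
    exact h0 y hy
  rw [INT.dz_congr this, INT.dzb_congr this, INT.dz_const, INT.dzb_const]
  exact ⟨rfl, rfl⟩

theorem int_dz (hC : IsCompact C) (hCO : C ⊆ O) (h1 : ∀ z ∈ O, ContDiffAt ℝ 1 H z)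
    (h0 : ∀ z ∉ C, H z = 0) (i : Fin n) :
    IntegrableOn (dz i H) O ∧ ∫ z in O, dz i H z = 0 := by
  obtain ⟨g1, g2⟩ := glob_contDiff hC hCO h1 h0
  have g3 : Continuous (dz i H) := by
    rw [continuous_iff_continuousAt]
    exact fun z => (C2.contDiffAt_dz (m := 0) i g1.contDiffAt (by norm_num)).continuousAt
  have g4 : HasCompactSupport (dz i H) := HasCompactSupport.intro hC fun z hz =>
    (dz_off' hC h0 i z hz).1
  refine ⟨(g3.integrable_of_hasCompactSupport g4).integrableOn, ?_⟩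
  rw [setIntegral_eq_integral_of_forall_compl_eq_zero fun z hz =>
    (dz_off' hC h0 i z fun h => hz (hCO h)).1]
  exact INT.integral_dz_eq_zero g1 g2 i

theorem int_dzb (hC : IsCompact C) (hCO : C ⊆ O) (h1 : ∀ z ∈ O, ContDiffAt ℝ 1 H z)
    (h0 : ∀ z ∉ C, H z = 0) (i : Fin n) :
    IntegrableOn (dzb i H) O ∧ ∫ z in O, dzb i H z = 0 := by
  obtain ⟨g1, g2⟩ := glob_contDiff hC hCO h1 h0
  have g3 : Continuous (dzb i H) := by
    rw [continuous_iff_continuousAt]
    exact fun z => (C2.contDiffAt_dzb (m := 0) i g1.contDiffAt (by norm_num)).continuousAt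
  have g4 : HasCompactSupport (dzb i H) := HasCompactSupport.intro hC fun z hz =>
    (dz_off' hC h0 i z hz).2
  refine ⟨(g3.integrable_of_hasCompactSupport g4).integrableOn, ?_⟩
  rw [setIntegral_eq_integral_of_forall_compl_eq_zero fun z hz =>
    (dz_off' hC h0 i z fun h => hz (hCO h)).2]
  exact INT.integral_dzb_eq_zero g1 g2 i

end

/-! ### the Leibniz rule modulo the Kaehler identity -/

/-- the product of the entries of the metric -/
def Wp (M : Matrix (Fin n) (Fin n) ℂ) (P : ℕ) (σ τ : Fin n → Fin n) : ℂ :=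
  ∏ k ∈ tl n P, M (σ k) (τ k)

section
variable {M : Cm n → Matrix (Fin n) (Fin n) ℂ} {z : Cm n}

theorem leib_dz (hp : P + 1 ≤ n) (hM : ∀ j k, DifferentiableAt ℝ (fun y => M y j k) z)
    (hcl : ∀ j k l, dz l (fun y => M y j k) z = dz j (fun y => M y l k) z)
    (u : (Fin P → Fin n) → Cm n → ℂ) (hu : ∀ s, DifferentiableAt ℝ (u s) z) (τ : Fin n → Fin n) :
    ∑ σ : Equiv.Perm (Fin n), ((Equiv.Perm.sign σ : ℤ) : ℂ) *
      dz (σ (Fin.castLE hp 0)) (fun y => u (fun i => σ (Fin.castLE hp i.succ)) y *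
        Wp (M y) P σ τ) z =
    ∑ σ : Equiv.Perm (Fin n), ((Equiv.Perm.sign σ : ℤ) : ℂ) *
      (dz (σ (Fin.castLE hp 0)) (u (fun i => σ (Fin.castLE hp i.succ))) z *
        Wp (M z) P σ τ) := by
  have h := cl_dz hp hM hcl (fun s => u s z) τ
  rw [← add_zero (∑ σ : Equiv.Perm (Fin n), ((Equiv.Perm.sign σ : ℤ) : ℂ) *
      (dz (σ (Fin.castLE hp 0)) (u (fun i => σ (Fin.castLE hp i.succ))) z *
        Wp (M z) P σ τ)), ← h, ← Finset.sum_add_distrib]
  refine Finset.sum_congr rfl fun σ _ => ?_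
  have hW : DifferentiableAt ℝ (fun y => Wp (M y) P σ τ) z :=
    diff_prod _ fun k _ => hM (σ k) (τ k)
  rw [INT.dz_mul (hu _) hW]
  unfold Wp
  ring

theorem leib_dzb (hp : P + 1 ≤ n) (hM : ∀ j k, DifferentiableAt ℝ (fun y => M y j k) z)
    (hcl : ∀ j k l, dzb l (fun y => M y k j) z = dzb j (fun y => M y k l) z)
    (u : (Fin P → Fin n) → Cm n → ℂ) (hu : ∀ s, DifferentiableAt ℝ (u s) z) (σ : Fin n → Fin n) :
    ∑ τ : Equiv.Perm (Fin n), ((Equiv.Perm.sign τ : ℤ) : ℂ) *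
      dzb (τ (Fin.castLE hp 0)) (fun y => u (fun i => τ (Fin.castLE hp i.succ)) y *
        Wp (M y) P σ τ) z =
    ∑ τ : Equiv.Perm (Fin n), ((Equiv.Perm.sign τ : ℤ) : ℂ) *
      (dzb (τ (Fin.castLE hp 0)) (u (fun i => τ (Fin.castLE hp i.succ))) z *
        Wp (M z) P σ τ) := by
  have h := cl_dzb hp hM hcl (fun s => u s z) σ
  rw [← add_zero (∑ τ : Equiv.Perm (Fin n), ((Equiv.Perm.sign τ : ℤ) : ℂ) *
      (dzb (τ (Fin.castLE hp 0)) (u (fun i => τ (Fin.castLE hp i.succ))) z *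
        Wp (M z) P σ τ)), ← h, ← Finset.sum_add_distrib]
  refine Finset.sum_congr rfl fun τ _ => ?_
  have hW : DifferentiableAt ℝ (fun y => Wp (M y) P σ τ) z :=
    diff_prod _ fun k _ => hM (σ k) (τ k)
  rw [INT.dzb_mul (hu _) hW]
  unfold Wp
  ring

end

/-! ### scalar identities -/

section
variable {φ : Cm n → ℝ} {f g : Cm n → ℂ} {z : Cm n}

/-- `e^{-φ}` -/
def EE (φ : Cm n → ℝ) (y : Cm n) : ℂ := (Real.exp (-φ y) : ℂ)

theorem EE_smooth {m : WithTop ℕ∞} (hφ : ContDiffAt ℝ m φ z) : ContDiffAt ℝ m (EE φ) z :=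
  C2.contDiffAt_ofReal (hφ.neg.exp)

theorem dz_EE (hφ : DifferentiableAt ℝ φ z) (a : Fin n) :
    dz a (EE φ) z = -(dz a (fun y => (φ y : ℂ)) z) * EE φ z := by
  have h := C2.dz_comp_real a (ψ := fun t => Real.exp (-t)) (ψ' := -Real.exp (-φ z)) (u := φ) (z := z)
    (by simpa using ((hasDerivAt_id (φ z)).neg).exp) hφ
  unfold EE
  rw [h]
  push_cast
  ring

theorem dzb_EE (hφ : DifferentiableAt ℝ φ z) (a : Fin n) :
    dzb a (EE φ) z = -(dzb a (fun y => (φ y : ℂ)) z) * EE φ z := by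
  have h := C2.dzb_comp_real a (ψ := fun t => Real.exp (-t)) (ψ' := -Real.exp (-φ z)) (u := φ) (z := z)
    (by simpa using ((hasDerivAt_id (φ z)).neg).exp) hφ
  unfold EE
  rw [h]
  push_cast
  ring

/-- the Chern derivative -/
def Dc (φ : Cm n → ℝ) (a : Fin n) (f : Cm n → ℂ) (y : Cm n) : ℂ :=
  dz a f y - dz a (fun y => (φ y : ℂ)) y * f y

theorem Dc_diff (hφ : ContDiffAt ℝ 2 φ z) (hf : ContDiffAt ℝ 2 f z) (a : Fin n) :
    ContDiffAt ℝ 1 (Dc φ a f) z := by
  have h1 : ContDiffAt ℝ 1 (dz a f) z := C2.contDiffAt_dz a hf (by norm_num)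
  have h2 : ContDiffAt ℝ 1 (dz a fun y => (φ y : ℂ)) z :=
    C2.contDiffAt_dz a (C2.contDiffAt_ofReal hφ) (by norm_num)
  exact h1.sub (h2.mul (hf.of_le (by norm_num)))

/-- the scalar identity -/
theorem scalar_bk (hφ : ContDiffAt ℝ 2 φ z) (hf : ContDiffAt ℝ 1 f z) (hg : ContDiffAt ℝ 2 g z)
    (a b : Fin n) :
    dz a (fun y => EE φ y * f y * conj (Dc φ b g y)) z -
      dzb b (fun y => EE φ y * f y * conj (dzb a g y)) z =
    EE φ z * (Dc φ a f z * conj (Dc φ b g z) - cHess φ z a b * (f z * conj (g z)) -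
      dzb b f z * conj (dzb a g z)) := by
  have hφ1 : DifferentiableAt ℝ φ z := hφ.differentiableAt (by norm_num)
  have hf1 : DifferentiableAt ℝ f z := hf.differentiableAt (by norm_num)
  have hE : DifferentiableAt ℝ (EE φ) z := (EE_smooth hφ).differentiableAt (by norm_num)
  have hEf : DifferentiableAt ℝ (fun y => EE φ y * f y) z := hE.mul hf1
  have hD : DifferentiableAt ℝ (Dc φ b g) z := (Dc_diff hφ hg b).differentiableAt (by norm_num)
  have hB : DifferentiableAt ℝ (dzb a g) z := C2.differentiableAt_dzb a hg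
  have hg1 : DifferentiableAt ℝ g z := hg.differentiableAt (by norm_num)
  have hφc : ContDiffAt ℝ 2 (fun y => (φ y : ℂ)) z := C2.contDiffAt_ofReal hφ
  have e1 : dz a (fun y => EE φ y * f y * conj (Dc φ b g y)) z =
      (dz a (EE φ) z * f z + EE φ z * dz a f z) * conj (Dc φ b g z) +
        EE φ z * f z * conj (dzb a (Dc φ b g) z) := by
    rw [INT.dz_mul hEf (C2.differentiableAt_conj hD), INT.dz_mul hE hf1, INT.dz_conj]
  have e2 : dzb b (fun y => EE φ y * f y * conj (dzb a g y)) z =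
      (dzb b (EE φ) z * f z + EE φ z * dzb b f z) * conj (dzb a g z) +
        EE φ z * f z * conj (dz b (dzb a g) z) := by
    rw [INT.dzb_mul hEf (C2.differentiableAt_conj hB), INT.dzb_mul hE hf1, INT.dzb_conj]
  have e3 : dzb a (Dc φ b g) z = dz b (dzb a g) z -
      (dz b (dzb a fun y => (φ y : ℂ)) z * g z + dz b (fun y => (φ y : ℂ)) z * dzb a g z) := by
    have h1 : DifferentiableAt ℝ (dz b g) z := C2.differentiableAt_dz b hg
    have h2 : DifferentiableAt ℝ (dz b fun y => (φ y : ℂ)) z := C2.differentiableAt_dz b hφc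
    have h3 : Dc φ b g = fun y => dz b g y - dz b (fun y => (φ y : ℂ)) y * g y := rfl
    rw [h3, INT.dzb_sub h1 (h2.fun_mul hg1), INT.dzb_mul h2 hg1, C2.dz_dzb_comm b a hg,
      C2.dz_dzb_comm b a hφc]
  have e4 : conj (dz b (dzb a fun y => (φ y : ℂ)) z) = cHess φ z a b := by
    have h1 : dz b (dzb a fun y => (φ y : ℂ)) z = conj (dzb b (fun y => conj (dzb a (fun y => (φ y : ℂ)) y)) z) := by
      rw [INT.dzb_conj, Complex.conj_conj]
    have h2 : (fun y => conj (dzb a (fun y => (φ y : ℂ)) y)) =ᶠ[𝓝 z] dz a (fun y => (φ y : ℂ)) := by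
      have h3 : ∀ᶠ y in 𝓝 z, ContDiffAt ℝ 2 φ y := hφ.eventually (by simp)
      filter_upwards [h3] with y hy
      exact (C2.dz_real a (hy.differentiableAt (by norm_num))).symm
    rw [h1, Complex.conj_conj, INT.dzb_congr h2, C2.cHess_apply, C2.dz_dzb_comm a b hφc]
  have e5 : conj (dz b (fun y => (φ y : ℂ)) z) = dzb b (fun y => (φ y : ℂ)) z :=
    (C2.dzb_real b hφ1).symm
  rw [e1, e2, e3, dz_EE hφ1, dzb_EE hφ1, map_sub, map_add, map_mul, map_mul, e4, e5]
  unfold Dc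
  ring

end

end Vale.Agent.P284.H279.K
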