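import Vale.Agent.P284.H279.K.IBP

/-!
# P284 (helper279), module K2: adjointness and the Bochner-Kodaira identity on `ℂⁿ`
-/

open scoped ContDiff Topology ComplexConjugate ComplexOrder
open Filter Set MeasureTheory

noncomputable section

namespace Vale.Agent.P284.H279.K

open Vale.Agent.P272.K Vale.Agent.P284.H608.K

variable {n p P : ℕ}

/-! ### algebra of `ev` and `hn` -/

theorem ev_add (A B : Af n p) (s : Fin p → Fin n) : ev (A + B) s = ev A s + ev B s := rfl

theorem ev_sub (A B : Af n p) (s : Fin p → Fin n) : ev (A - B) s = ev A s - ev B s := rfl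

theorem ev_neg (A : Af n p) (s : Fin p → Fin n) : ev (-A) s = -ev A s := rfl

theorem ev_smul (c : ℂ) (A : Af n p) (s : Fin p → Fin n) : ev (c • A) s = c * ev A s := rfl

theorem ev_zero (s : Fin p → Fin n) : ev (0 : Af n p) s = 0 := rfl

/-- forms of degree `> n` vanish -/
theorem Af_zero (h : n < p) (A : Af n p) : A = 0 := by
  ext v
  by_contra hne
  have hli : LinearIndependent ℂ v := by
    by_contra hc
    exact hne (A.toAlternatingMap.map_linearDependent v hc)
  have := hli.fintype_card_le_finrank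
  simp at this
  omega

theorem hn_zero_left (w : Matrix (Fin n) (Fin n) ℂ) (B : Af n p) : hn w 0 B = 0 := by
  simp [hn, ev_zero]

theorem hn_zero_right (w : Matrix (Fin n) (Fin n) ℂ) (A : Af n p) : hn w A 0 = 0 := by
  simp [hn, ev_zero]

theorem hn_neg_left (w : Matrix (Fin n) (Fin n) ℂ) (A B : Af n p) : hn w (-A) B = -hn w A B := by
  simp only [hn, ev_neg, neg_mul, Finset.sum_neg_distrib, mul_neg]

theorem hn_neg_right (w : Matrix (Fin n) (Fin n) ℂ) (A B : Af n p) : hn w A (-B) = -hn w A B := by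
  simp only [hn, ev_neg, neg_mul, Finset.sum_neg_distrib, mul_neg, map_neg]

theorem ev_curryLeft (η : Af n (p + 1)) (t : Fin (p + 1) → Fin n) :
    ev (η.curryLeft (Pi.single (t 0) 1)) (fun i => t i.succ) = ev η t := by
  unfold ev
  rw [ContinuousAlternatingMap.curryLeft_apply_apply]
  congr 1
  funext i
  refine Fin.cases ?_ (fun j => ?_) i
  · rfl
  · rfl

theorem smulRight_curry (η : Af n (p + 1)) (c : ℂ) :
    (∑ a : Fin n, (ContinuousLinearMap.proj (R := ℂ) (φ := fun _ : Fin n => ℂ) a).smulRight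
      (c • η.curryLeft (Pi.single a 1))) = c • η.curryLeft := by
  ext x v
  rw [sum_apply]
  simp only [ContinuousLinearMap.smulRight_apply, ContinuousLinearMap.proj_apply,
    smul_apply]
  have hx : x = ∑ a : Fin n, x a • (Pi.single a 1 : Cm n) := by
    funext l
    simp [Finset.sum_apply, Pi.single_apply]
  conv_rhs => rw [hx, map_sum]
  simp only [map_smul, Finset.smul_sum]
  congr 1
  exact Finset.sum_congr rfl fun a _ => smul_comm _ _ _

theorem alt_curry (η : Af n (p + 1)) : ContinuousAlternatingMap.alternatizeUncurryFin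
    (∑ a : Fin n, (ContinuousLinearMap.proj (R := ℂ) (φ := fun _ : Fin n => ℂ) a).smulRight
      (((p + 1 : ℕ) : ℂ)⁻¹ • η.curryLeft (Pi.single a 1))) = η := by
  rw [smulRight_curry, ContinuousAlternatingMap.alternatizeUncurryFin_smul,
    ContinuousAlternatingMap.alternatizeUncurryFin_curryLeft]
  rw [← Nat.cast_smul_eq_nsmul ℂ, smul_smul, inv_mul_cancel₀ (by exact_mod_cast p.succ_ne_zero),
    one_smul]

/-- linearity of `Qp` in the form -/
theorem Qp_smul (hp : p ≤ n) (w : Matrix (Fin n) (Fin n) ℂ) (c : ℂ)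
    (K : (Fin p → Fin n) → (Fin p → Fin n) → ℂ) :
    Qp hp w (fun s t => c * K s t) = c * Qp hp w K := by
  simp only [Qp, Finset.mul_sum]
  exact Finset.sum_congr rfl fun σ _ => Finset.sum_congr rfl fun τ _ => by ring

theorem Qp_sum (hp : p ≤ n) (w : Matrix (Fin n) (Fin n) ℂ) {ι : Type*} (S : Finset ι)
    (K : ι → (Fin p → Fin n) → (Fin p → Fin n) → ℂ) :
    Qp hp w (fun s t => ∑ c ∈ S, K c s t) = ∑ c ∈ S, Qp hp w (K c) := by
  simp only [Qp, Finset.mul_sum, Finset.sum_mul]
  rw [Finset.sum_comm' (s := S) (t := fun _ => Finset.univ) (t' := Finset.univ) (s' := fun _ => S)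
    (by simp)]
  refine Finset.sum_congr rfl fun σ _ => ?_
  rw [Finset.sum_comm]

/-- the curvature term -/
theorem Qp_beta (k1 : K1Stmt) (hp : P + 1 ≤ n) {w : Matrix (Fin n) (Fin n) ℂ} (hw : w.PosDef)
    (β : Matrix (Fin n) (Fin n) ℂ) (η τ : Af n P) :
    Qp hp w (fun s t => β (s 0) (t 0) * (ev η (fun i => s i.succ) *
      conj (ev τ (fun i => t i.succ)))) =
      (P.factorial : ℂ) ^ 2 * (n - P - 1).factorial * w.det *
        ∑ c, ∑ d, β c d * hn w (wdz c η) (wdz d τ) := by
  have e1 : (fun (s t : Fin (P + 1) → Fin n) => β (s 0) (t 0) * (ev η (fun i => s i.succ) *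
      conj (ev τ (fun i => t i.succ)))) = fun s t => ∑ c, ∑ d, β c d *
        (ev ((fun a => if a = c then η else 0) (s 0)) (fun i => s i.succ) *
        conj (ev ((fun a => if a = d then τ else 0) (t 0)) (fun i => t i.succ))) := by
    funext s t
    rw [Finset.sum_eq_single (s 0), Finset.sum_eq_single (t 0)]
    · simp
    · intro d _ hd
      simp only [if_neg (Ne.symm hd), ev_zero, map_zero, mul_zero]
    · intro h; exact absurd (Finset.mem_univ _) h
    · intro c _ hc
      refine Finset.sum_eq_zero fun d _ => ?_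
      simp only [if_neg (Ne.symm hc), ev_zero, zero_mul, mul_zero]
    · intro h; exact absurd (Finset.mem_univ _) h
  rw [e1, Qp_sum, Finset.mul_sum]
  refine Finset.sum_congr rfl fun c _ => ?_
  rw [Qp_sum, Finset.mul_sum]
  refine Finset.sum_congr rfl fun d _ => ?_
  have e2 : ∀ (c : Fin n) (η : Af n P), ContinuousAlternatingMap.alternatizeUncurryFin
      (∑ a : Fin n, (ContinuousLinearMap.proj (R := ℂ) (φ := fun _ : Fin n => ℂ) a).smulRight
      (if a = c then η else 0)) = wdz c η := by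
    intro c η
    rw [Finset.sum_eq_single c]
    · rw [if_pos rfl, wdz]
    · intro a _ ha
      rw [if_neg ha]
      ext x v
      simp
    · intro h; exact absurd (Finset.mem_univ _) h
  have h := k1.F2 n P hp w hw (fun a => if a = c then η else 0) (fun a => if a = d then τ else 0)
  rw [e2, e2] at h
  rw [Qp_smul hp w (β c d), h]
  ring

/-! ### the identities -/

section
variable {O C : Set (Cm n)} {H : Cm n → ℂ}

theorem int_cont (hC : IsCompact C) (hCO : C ⊆ O) (h1 : ∀ z ∈ O, ContinuousAt H z)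
    (h0 : ∀ z ∉ C, H z = 0) : IntegrableOn H O := by
  have h2 : Continuous H := by
    rw [continuous_iff_continuousAt]
    intro z
    by_cases hz : z ∈ O
    · exact h1 z hz
    · have : H =ᶠ[𝓝 z] fun _ => 0 := by
        filter_upwards [hC.isClosed.isOpen_compl.mem_nhds fun h => hz (hCO h)] with y hy
        exact h0 y hy
      exact continuousAt_const.congr this.symm
  exact (h2.integrable_of_hasCompactSupport (HasCompactSupport.intro hC h0)).integrableOn

theorem Qp_cont (hp : p ≤ n) {w : Cm n → Matrix (Fin n) (Fin n) ℂ} {z : Cm n}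
    (hw : ∀ j k, ContinuousAt (fun y => w y j k) z)
    {K : (Fin p → Fin n) → (Fin p → Fin n) → Cm n → ℂ} (hK : ∀ s t, ContinuousAt (K s t) z) :
    ContinuousAt (fun y => Qp hp (w y) fun s t => K s t y) z := by
  unfold Qp
  refine tendsto_finsetSum _ fun σ _ => tendsto_finsetSum _ fun τ _ => ?_
  refine Tendsto.mul (Tendsto.mul tendsto_const_nhds (hK _ _)) ?_
  exact tendsto_finsetProd _ fun k _ => hw (σ k) (τ k)

end

theorem Dc_ev {φ : Cm n → ℝ} {η : Cm n → Af n P} {z : Cm n} (h : DifferentiableAt ℝ η z)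
    (a : Fin n) (s : Fin P → Fin n) : Dc φ a (fun y => ev (η y) s) z =
      ev (dzV a η z - dz a (fun y => (φ y : ℂ)) z • η z) s := by
  rw [Dc, ev_dzV h, ev_sub, ev_smul]


theorem SL_zero_of_lt (h : n < p + 1) (w : Cm n → Matrix (Fin n) (Fin n) ℂ)
    (η : Cm n → Af n (p + 1)) (z : Cm n) : SL w η z = 0 := by
  have : η = fun _ => 0 := funext fun z => Af_zero h _
  rw [this]
  simp [SL, Lam, dbV]

theorem fac_ne (a b : ℕ) : ((a.factorial : ℂ)) ^ 2 * (b.factorial : ℂ) ≠ 0 := by
  have h1 : (a.factorial : ℂ) ≠ 0 := by exact_mod_cast a.factorial_ne_zero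
  have h2 : (b.factorial : ℂ) ≠ 0 := by exact_mod_cast b.factorial_ne_zero
  exact mul_ne_zero (pow_ne_zero _ h1) h2

/-- **K2**, adjointness -/
theorem k2Adj_of (k1 : K1Stmt) : K2AdjStmt := by
  intro n p O hO w hw φ hφ τ η hτ hη ⟨C, hC, hCO, h0⟩
  by_cases hp : p + 1 ≤ n
  swap
  · have hη0 : ∀ z, η z = 0 := fun z => Af_zero (by omega) _
    have hS : ∀ z, SL w η z = 0 := fun z => SL_zero_of_lt (by omega) w η z
    simp only [hη0, hS, hn_zero_right, mul_zero, zero_mul]
  have one : (1 : WithTop ℕ∞) ≤ ∞ := by norm_cast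
  set h : (Fin p → Fin n) → Cm n → ℂ := fun s y => ev (τ y) s with hh
  set g : (Fin (p + 1) → Fin n) → Cm n → ℂ := fun s y => ev (η y) s with hg
  have hhs : ∀ s, ∀ z ∈ O, ContDiffAt ℝ ∞ (h s) z := fun s z hz => ev_smooth (hτ z hz) s
  have hgs : ∀ s, ∀ z ∈ O, ContDiffAt ℝ ∞ (g s) z := fun s z hz => ev_smooth (hη z hz) s
  have h0' : (∀ s, ∀ z ∉ C, h s z = 0) ∨ ∀ s, ∀ z ∉ C, g s z = 0 := by
    rcases h0 with h0 | h0
    · left; intro s z hz; rw [hh]; simp only; rw [h0 z hz, ev_zero]
    · right; intro s z hz; rw [hg]; simp only; rw [h0 z hz, ev_zero]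
  have key := adj_sum hp hO hC hCO hw hφ hhs hgs h0'
  set c : ℂ := (p.factorial : ℂ) * (p + 1).factorial * (n - (p + 1)).factorial with hc
  have hc0 : c ≠ 0 := by
    have h1 : (p.factorial : ℂ) ≠ 0 := by exact_mod_cast p.factorial_ne_zero
    have h2 : ((p + 1).factorial : ℂ) ≠ 0 := by exact_mod_cast (p + 1).factorial_ne_zero
    have h3 : ((n - (p + 1)).factorial : ℂ) ≠ 0 := by exact_mod_cast (n - (p + 1)).factorial_ne_zero
    exact mul_ne_zero (mul_ne_zero h1 h2) h3
  have e1 : ∀ z ∈ O, Qp hp (w z) (fun s t => Dc φ (s 0) (h fun i => s i.succ) z * conj (g t z)) =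
      c * ((w z).det * hn (w z) (dhL φ τ z) (η z)) := by
    intro z hz
    have hd : DifferentiableAt ℝ τ z := (hτ z hz).differentiableAt (by simp)
    have h1 := k1.F2 n p hp (w z) (hw.pos z hz)
      (fun a => dzV a τ z - dz a (fun y => (φ y : ℂ)) z • τ z)
      (fun a => ((p + 1 : ℕ) : ℂ)⁻¹ • (η z).curryLeft (Pi.single a 1))
    rw [alt_curry] at h1
    have h2 : (fun (s t : Fin (p + 1) → Fin n) => Dc φ (s 0) (h fun i => s i.succ) z * conj (g t z)) =
        fun s t => ((p + 1 : ℕ) : ℂ) * (ev ((fun a => dzV a τ z - dz a (fun y => (φ y : ℂ)) z • τ z) (s 0))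
          (fun i => s i.succ) * conj (ev ((fun a => ((p + 1 : ℕ) : ℂ)⁻¹ •
            (η z).curryLeft (Pi.single a 1)) (t 0)) fun i => t i.succ)) := by
      funext s t
      simp only
      rw [ev_smul, ev_curryLeft, ← Dc_ev hd, map_mul, map_inv₀, Complex.conj_natCast]
      have h3 : ((p + 1 : ℕ) : ℂ) ≠ 0 := by exact_mod_cast p.succ_ne_zero
      rw [hh, hg]
      field_simp
    rw [h2, Qp_smul, h1, hc]
    have h4 : (((p + 1).factorial : ℕ) : ℂ) = ((p + 1 : ℕ) : ℂ) * (p.factorial : ℂ) := by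
      rw [Nat.factorial_succ]; push_cast; ring
    rw [h4, Nat.sub_sub]
    unfold dhL
    ring
  have e2 : ∀ z ∈ O, Qp hp (w z) (fun s t => h (fun i => s i.succ) z * conj (dzb (s 0) (g t) z)) =
      -(c * ((w z).det * hn (w z) (τ z) (SL w η z))) := by
    intro z hz
    have hd : DifferentiableAt ℝ η z := (hη z hz).differentiableAt (by simp)
    have h1 := k1.F4 n p hp (w z) (hw.pos z hz) (τ z) (fun b => dbV b η z)
    have h2 : (fun (s t : Fin (p + 1) → Fin n) => h (fun i => s i.succ) z * conj (dzb (s 0) (g t) z)) =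
        fun s t => ev (τ z) (fun i => s i.succ) * conj (ev ((fun b => dbV b η z) (s 0)) t) := by
      funext s t
      simp only
      rw [← ev_dbV hd]
    rw [h2, h1, SL, hn_neg_right, hc]
    ring
  have c1 : ∀ z ∈ O, ContinuousAt (EE φ) z := fun z hz => (EE_smooth (hφ z hz)).continuousAt
  have cw : ∀ z ∈ O, ∀ j k, ContinuousAt (fun y => w y j k) z := fun z hz j k =>
    (hw.sm z hz j k).continuousAt
  have two : (2 : WithTop ℕ∞) ≤ ∞ := by norm_cast
  have i1 : IntegrableOn (fun z => EE φ z * Qp hp (w z)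
      (fun s t => Dc φ (s 0) (h fun i => s i.succ) z * conj (g t z))) O := by
    refine int_cont hC hCO (fun z hz => (c1 z hz).mul (Qp_cont hp (cw z hz) fun s t => ?_)) ?_
    · exact (Dc_diff ((hφ z hz).of_le two) ((hhs _ z hz).of_le two) _).continuousAt.mul
        (C2.contDiffAt_conj (hgs t z hz)).continuousAt
    · intro z hz
      have : (fun (s t : Fin (p + 1) → Fin n) => Dc φ (s 0) (h fun i => s i.succ) z *
          conj (g t z)) = fun s t => 0 * (0 : ℂ) := by
        funext s t
        rcases h0' with h0 | h0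
        · rw [Dc, (dz_off' hC (h0 _) _ z hz).1, h0 _ z hz]; simp
        · rw [h0 _ z hz]; simp
      rw [this, Qp_smul, zero_mul, mul_zero]
  have i2 : IntegrableOn (fun z => EE φ z * Qp hp (w z)
      (fun s t => h (fun i => s i.succ) z * conj (dzb (s 0) (g t) z))) O := by
    refine int_cont hC hCO (fun z hz => (c1 z hz).mul (Qp_cont hp (cw z hz) fun s t => ?_)) ?_
    · exact (hhs _ z hz).continuousAt.mul (C2.contDiffAt_conj (C2.contDiffAt_dzb (m := 1) _
        ((hgs t z hz).of_le two) (by norm_num))).continuousAt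
    · intro z hz
      have : (fun (s t : Fin (p + 1) → Fin n) => h (fun i => s i.succ) z *
          conj (dzb (s 0) (g t) z)) = fun s t => 0 * (0 : ℂ) := by
        funext s t
        rcases h0' with h0 | h0
        · rw [h0 _ z hz]; simp
        · rw [(dz_off' hC (h0 _) _ z hz).2]; simp
      rw [this, Qp_smul, zero_mul, mul_zero]
  simp only [mul_add] at key
  rw [integral_add i1 i2] at key
  have f1 : ∫ z in O, EE φ z * Qp hp (w z)
      (fun s t => Dc φ (s 0) (h fun i => s i.succ) z * conj (g t z)) =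
      c * ∫ z in O, (Real.exp (-φ z) : ℂ) * hn (w z) (dhL φ τ z) (η z) * (w z).det := by
    rw [← integral_const_mul]
    refine setIntegral_congr_fun hO.measurableSet fun z hz => ?_
    rw [e1 z hz, EE]
    ring
  have f2 : ∫ z in O, EE φ z * Qp hp (w z)
      (fun s t => h (fun i => s i.succ) z * conj (dzb (s 0) (g t) z)) =
      -(c * ∫ z in O, (Real.exp (-φ z) : ℂ) * hn (w z) (τ z) (SL w η z) * (w z).det) := by
    rw [← integral_const_mul, ← integral_neg]
    refine setIntegral_congr_fun hO.measurableSet fun z hz => ?_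
    rw [e2 z hz, EE]
    ring
  rw [f1, f2] at key
  exact mul_left_cancel₀ hc0 (by linear_combination key)

/-- the conversion of the first two terms -/
theorem bk_conv (k1 : K1Stmt) (hp : P + 1 ≤ n) {w : Matrix (Fin n) (Fin n) ℂ} (hw : w.PosDef)
    {φ : Cm n → ℝ} {η τ : Cm n → Af n P} {z : Cm n} (hη : DifferentiableAt ℝ η z)
    (hτ : DifferentiableAt ℝ τ z) :
    Qp hp w (fun s t => Dc φ (s 0) (fun y => ev (η y) fun i => s i.succ) z *
        conj (Dc φ (t 0) (fun y => ev (τ y) fun i => t i.succ) z)) =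
      (P.factorial : ℂ) ^ 2 * (n - P - 1).factorial * w.det * hn w (dhL φ η z) (dhL φ τ z) ∧
    Qp hp w (fun s t => cHess φ z (s 0) (t 0) * (ev (η z) (fun i => s i.succ) *
        conj (ev (τ z) (fun i => t i.succ)))) =
      (P.factorial : ℂ) ^ 2 * (n - P - 1).factorial * w.det *
        ∑ c, ∑ d, cHess φ z c d * hn w (wdz c (η z)) (wdz d (τ z)) ∧
    Qp hp w (fun s t => dzb (t 0) (fun y => ev (η y) fun i => s i.succ) z *
        conj (dzb (s 0) (fun y => ev (τ y) fun i => t i.succ) z)) =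
      Qp hp w (fun s t => ev ((fun b => dbV b η z) (t 0)) (fun i => s i.succ) *
        conj (ev ((fun b => dbV b τ z) (s 0)) fun i => t i.succ)) := by
  refine ⟨?_, Qp_beta k1 hp hw _ _ _, ?_⟩
  · have h1 := k1.F2 n P hp w hw (fun a => dzV a η z - dz a (fun y => (φ y : ℂ)) z • η z)
      (fun a => dzV a τ z - dz a (fun y => (φ y : ℂ)) z • τ z)
    unfold dhL
    rw [← h1]
    congr 1
    funext s t
    rw [Dc_ev hη, Dc_ev hτ]
  · congr 1
    funext s t
    rw [← ev_dbV hη, ← ev_dbV hτ]

/-- **K2**, the Bochner-Kodaira identity -/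
theorem k2BK_of (k1 : K1Stmt) : K2BKStmt := by
  intro n p O hO w hw φ hφ η τ hη hτ ⟨C, hC, hCO, h0⟩
  by_cases hp : p + 2 ≤ n
  · have hhs : ∀ s : Fin (p + 1) → Fin n, ∀ z ∈ O, ContDiffAt ℝ ∞ (fun y => ev (η y) s) z :=
      fun s z hz => ev_smooth (hη z hz) s
    have hks : ∀ s : Fin (p + 1) → Fin n, ∀ z ∈ O, ContDiffAt ℝ ∞ (fun y => ev (τ y) s) z :=
      fun s z hz => ev_smooth (hτ z hz) s
    have hk0 : ∀ s : Fin (p + 1) → Fin n, ∀ z ∉ C, (fun y => ev (τ y) s) z = 0 := by
      intro s z hz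
      simp only
      rw [h0 z hz, ev_zero]
    have key := bk_sum (P := p + 1) hp hO hC hCO hw hφ (h := fun s y => ev (η y) s)
      (k := fun s y => ev (τ y) s) hhs hks hk0
    have hc0 := fac_ne (p + 1) (n - (p + 1) - 1)
    rw [← mul_right_inj' hc0, mul_zero, ← integral_const_mul, ← key]
    refine setIntegral_congr_fun hO.measurableSet fun z hz => ?_
    have hη1 : DifferentiableAt ℝ η z := (hη z hz).differentiableAt (by simp)
    have hτ1 : DifferentiableAt ℝ τ z := (hτ z hz).differentiableAt (by simp)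
    obtain ⟨a1, a2, a3⟩ := bk_conv k1 (P := p + 1) hp (hw.pos z hz) (φ := φ) hη1 hτ1
    rw [a1, a2, a3, k1.F3 n p hp (w z) (hw.pos z hz) (fun b => dbV b η z) (fun b => dbV b τ z)]
    unfold SL
    rw [hn_neg_left, hn_neg_right, EE]
    ring
  · refine setIntegral_eq_zero_of_forall_eq_zero fun z hz => ?_
    have hz1 : ∀ A : Af n (p + 2), A = 0 := fun A => Af_zero (by omega) A
    rw [hz1 (dhL φ η z), hn_zero_left]
    have e1 : ∀ c d, hn (w z) (wdz c (η z)) (wdz d (τ z)) = 0 := by
      intro c d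
      rw [hz1 (wdz c (η z)), hn_zero_left]
    simp only [e1, mul_zero, Finset.sum_const_zero, sub_zero, zero_add]
    by_cases hp1 : n = p + 1
    · subst hp1
      have h1 := k1.F3t p (w z) (hw.pos z hz) (fun b => dbV b η z) (fun b => dbV b τ z)
      rw [h1]
      unfold SL
      rw [hn_neg_left, hn_neg_right, neg_neg, sub_self, mul_zero]
    · have hη0 : η = fun _ => 0 := funext fun z => Af_zero (by omega) _
      rw [SL_zero_of_lt (by omega) w η z, hn_zero_left]
      have e2 : ∀ b b', hn (w z) (dbV b η z) (dbV b' τ z) = 0 := by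
        intro b b'
        rw [Af_zero (by omega) (dbV b η z), hn_zero_left]
      simp only [e2, mul_zero, Finset.sum_const_zero, sub_zero]

/-- **K2**, the Bochner-Kodaira identity for functions -/
theorem k2BK0_of (k1 : K1Stmt) : K2BK0Stmt := by
  intro n O hO w hw φ hφ η τ hη hτ ⟨C, hC, hCO, h0⟩
  by_cases hp : 1 ≤ n
  · have hhs : ∀ s : Fin 0 → Fin n, ∀ z ∈ O, ContDiffAt ℝ ∞ (fun y => ev (η y) s) z :=
      fun s z hz => ev_smooth (hη z hz) s
    have hks : ∀ s : Fin 0 → Fin n, ∀ z ∈ O, ContDiffAt ℝ ∞ (fun y => ev (τ y) s) z :=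
      fun s z hz => ev_smooth (hτ z hz) s
    have hk0 : ∀ s : Fin 0 → Fin n, ∀ z ∉ C, (fun y => ev (τ y) s) z = 0 := by
      intro s z hz
      simp only
      rw [h0 z hz, ev_zero]
    have key := bk_sum (P := 0) hp hO hC hCO hw hφ (h := fun s y => ev (η y) s)
      (k := fun s y => ev (τ y) s) hhs hks hk0
    have hc0 := fac_ne 0 (n - 0 - 1)
    rw [← mul_right_inj' hc0, mul_zero, ← integral_const_mul, ← key]
    refine setIntegral_congr_fun hO.measurableSet fun z hz => ?_
    have hη1 : DifferentiableAt ℝ η z := (hη z hz).differentiableAt (by simp)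
    have hτ1 : DifferentiableAt ℝ τ z := (hτ z hz).differentiableAt (by simp)
    obtain ⟨a1, a2, a3⟩ := bk_conv k1 (P := 0) hp (hw.pos z hz) (φ := φ) hη1 hτ1
    rw [a1, a2, a3, k1.F3z n hp (w z) (hw.pos z hz) (fun b => dbV b η z) (fun b => dbV b τ z)]
    rw [EE, Nat.factorial_zero, Nat.sub_zero]
    push_cast
    ring
  · obtain rfl : n = 0 := by omega
    refine setIntegral_eq_zero_of_forall_eq_zero fun z hz => ?_
    rw [Af_zero (by omega) (dhL φ η z), hn_zero_left]
    simp

end Vale.Agent.P284.H279.K
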