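import Vale.Agent.P284.H279.K.Closed
import Vale.Agent.P284.H206.Sp.A6

/-!
# P284 (helper279), module K10: `d(t/s) ∧ φ = 0` and Bogomolov's theorem on compact Kaehler manifolds
-/

open scoped Manifold ContDiff Topology ComplexOrder ComplexConjugate Matrix
open Filter Set MeasureTheory

noncomputable section

namespace Vale.Agent.P284.H279.K

open Vale.Agent.P272.K Vale.Agent.P272.K.INT Vale.Agent.P272.KOD Vale.Agent.P284.H206.Bog
  Vale.Agent.P284.H248 Vale.Agent.P284.H608.K Vale.Agent.P284.H206.Sp Vale.Agent.P284.H206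

section local_
variable {n R : ℕ}

/-- the product rule for the exterior derivative -/
theorem extDeriv_fmul {h : Cm n → ℂ} {β : Cm n → Af n R} {x : Cm n} (hh : DifferentiableAt ℂ h x)
    (hβ : DifferentiableAt ℂ β x) :
    extDeriv (fun z => h z • β z) x = h x • extDeriv β x +
      ContinuousAlternatingMap.alternatizeUncurryFin ((fderiv ℂ h x).smulRight (β x)) := by
  unfold extDeriv
  have h1 : fderiv ℂ (fun z => h z • β z) x = h x • fderiv ℂ β x +
      (fderiv ℂ h x).smulRight (β x) := fderiv_fun_smul hh hβ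
  rw [h1, ContinuousAlternatingMap.alternatizeUncurryFin_add,
    ContinuousAlternatingMap.alternatizeUncurryFin_smul]

/-- two closed multiples of a form -/
theorem wedge_closed {g ρ : Cm n → ℂ} {F : Cm n → (Cm n) [⋀^Fin R]→ₗ[ℂ] ℂ} {x : Cm n}
    (hg : ContDiffAt ℂ ω g x) (hρ : ContDiffAt ℂ ω ρ x)
    (hF : ContDiffAt ℂ ω (fun z => toAf (F z)) x) (hg0 : g x ≠ 0)
    (h1 : extDeriv (fun z => g z • toAf (F z)) x = 0)
    (h2 : extDeriv (fun z => (ρ z * g z) • toAf (F z)) x = 0) :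
    wd (fderiv ℂ ρ x).toLinearMap (F x) = 0 := by
  have hgF : DifferentiableAt ℂ (fun z => g z • toAf (F z)) x :=
    (hg.smul hF).differentiableAt (by simp)
  have e1 : (fun z => (ρ z * g z) • toAf (F z)) = fun z => ρ z • (g z • toAf (F z)) := by
    funext z; rw [mul_smul]
  rw [e1, extDeriv_fmul (hρ.differentiableAt (by simp)) hgF, h1, smul_zero, zero_add] at h2
  ext v
  have h3 := congrArg (fun A : Af n (R + 1) => A v) h2
  simp only [ContinuousAlternatingMap.alternatizeUncurryFin_apply] at h3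
  rw [wd_apply, AlternatingMap.zero_apply]
  have h4 : ∀ j : Fin (R + 1), (-1 : ℤ) ^ (j : ℕ) • ((fderiv ℂ ρ x).smulRight (g x • toAf (F x))
      (v j) (j.removeNth v)) = g x * ((-1) ^ (j : ℕ) * ((fderiv ℂ ρ x).toLinearMap (v j) *
        F x (fun a => v (j.succAbove a)))) := by
    intro j
    have h5 : (fderiv ℂ ρ x).smulRight (g x • toAf (F x)) (v j) (j.removeNth v) =
        fderiv ℂ ρ x (v j) * (g x * F x (fun a => v (j.succAbove a))) := rfl
    have h6 : (fderiv ℂ ρ x).toLinearMap (v j) = fderiv ℂ ρ x (v j) := rfl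
    rw [h5, h6, zsmul_eq_mul]
    push_cast
    ring
  have h6 : ∑ j : Fin (R + 1), g x * ((-1) ^ (j : ℕ) * ((fderiv ℂ ρ x).toLinearMap (v j) *
        F x (fun a => v (j.succAbove a)))) = 0 := by
    rw [← Finset.sum_congr rfl fun j _ => h4 j]
    exact h3
  rw [← Finset.mul_sum] at h6
  exact (mul_eq_zero.1 h6).resolve_left hg0

end local_

variable {n R : ℕ} {X : Type} [TopologicalSpace X] [ChartedSpace (Cm n) X]
  [IsManifold 𝓘(ℂ, Cm n) ω X]
  {L : LineBundle n X} {k : ℕ} {w : Chart n X → Cm n → Matrix (Fin n) (Fin n) ℂ}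

/-- `d(t/s) ∧ φ = 0`, the case of nonvanishing `t` -/
theorem OmK_zero' [T2Space X] [CompactSpace X] (k1 : K1Stmt) (hw : IsKahler w)
    (φ : Mor L R) (hk : k ≠ 0) (s t : Sec L k) {i : L.ι} {e : Chart n X} {x : X}
    (he : At e x) (hi : x ∈ L.U i) (hs : s.f i x ≠ 0) (ht : t.f i x ≠ 0) :
    Om s t φ i e (e x) = 0 := by
  have hsh := s.holo i e x he hi
  have hth := t.holo i e x he hi
  have hs1 : s.f i (e.symm (e x)) ≠ 0 := by rwa [he.left_inv]
  have ht1 : t.f i (e.symm (e x)) ≠ 0 := by rwa [he.left_inv]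
  obtain ⟨g, hg, hgk⟩ := exists_root hsh hs1 hk
  have hqh : ContDiffAt ℂ ω (fun ζ => t.f i (e.symm ζ) / s.f i (e.symm ζ)) (e x) := hth.div hsh hs1
  have hq1 : t.f i (e.symm (e x)) / s.f i (e.symm (e x)) ≠ 0 := div_ne_zero ht1 hs1
  obtain ⟨ρ, hρ, hρk⟩ := exists_root hqh hq1 hk
  have hg0 : g (e x) ≠ 0 := by
    intro h0
    have := hgk.self_of_nhds
    rw [h0, zero_pow hk] at this
    exact hs1 this.symm
  have h1 := closedK k1 hw φ hk s he hi hs hg hgk
  have h2 := closedK k1 hw φ hk t he hi ht (g := fun ζ => ρ ζ * g ζ) (hρ.mul hg) (by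
    filter_upwards [hgk, hρk, hsh.continuousAt.eventually_ne hs1] with ζ a b c
    rw [mul_pow, a, b, div_mul_cancel₀ _ c])
  have h3 := wedge_closed hg hρ (form_holo φ he hi) hg0 h1 h2
  -- the differential of `t/s`
  have h4 : dq s t i e (e x) = (k * ρ (e x) ^ (k - 1)) • fderiv ℂ ρ (e x) := by
    have hev : (fun z => t.f i (e.symm z) / s.f i (e.symm z)) =ᶠ[𝓝 (e x)] fun z => ρ z ^ k := by
      filter_upwards [hρk] with z hz
      exact hz.symm
    have h5 := ((hρ.differentiableAt (by simp)).hasFDerivAt.pow k).fderiv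
    rw [dq, hev.fderiv_eq]
    rw [h5, nsmul_eq_mul]
  unfold Om
  rw [h4]
  ext v
  have h7 := congrArg (fun A : (Cm n) [⋀^Fin (R + 1)]→ₗ[ℂ] ℂ => A v) h3
  simp only [wd_apply, AlternatingMap.zero_apply] at h7
  rw [wd_apply, AlternatingMap.zero_apply]
  have h8 : ∀ j : Fin (R + 1), (-1 : ℂ) ^ (j : ℕ) *
      (((k * ρ (e x) ^ (k - 1)) • fderiv ℂ ρ (e x)).toLinearMap (v j) *
        φ.form i e (e x) (fun a => v (j.succAbove a))) = (k * ρ (e x) ^ (k - 1)) *
      ((-1 : ℂ) ^ (j : ℕ) * ((fderiv ℂ ρ (e x)).toLinearMap (v j) *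
        φ.form i e (e x) (fun a => v (j.succAbove a)))) := by
    intro j
    have h6 : ((k * ρ (e x) ^ (k - 1)) • fderiv ℂ ρ (e x)).toLinearMap (v j) =
      (k * ρ (e x) ^ (k - 1)) * (fderiv ℂ ρ (e x)).toLinearMap (v j) := rfl
    rw [h6]
    ring
  rw [Finset.sum_congr rfl fun j _ => h8 j, ← Finset.mul_sum, h7, mul_zero]

/-- **`d(t/s) ∧ φ = 0`** on a compact Kaehler manifold -/
theorem OmK_zero [T2Space X] [CompactSpace X] (k1 : K1Stmt) (hw : IsKahler w)
    (φ : Mor L R) (hk : k ≠ 0) (s t : Sec L k) {i : L.ι} {e : Chart n X} {x : X}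
    (he : At e x) (hi : x ∈ L.U i) (hs : s.f i x ≠ 0) : Om s t φ i e (e x) = 0 := by
  by_cases ht : t.f i x = 0
  · have h1 : (sadd s t).f i x ≠ 0 := by
      show s.f i x + t.f i x ≠ 0
      rw [ht, add_zero]; exact hs
    have h2 := OmK_zero' k1 hw φ hk s (sadd s t) he hi hs h1
    have hsh := (s.holo i e x he hi).analyticAt
    have hs1 : s.f i (e.symm (e x)) ≠ 0 := by rwa [he.left_inv]
    have hev : (fun z => (sadd s t).f i (e.symm z) / s.f i (e.symm z)) =ᶠ[𝓝 (e x)]
        fun z => 1 + t.f i (e.symm z) / s.f i (e.symm z) := by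
      filter_upwards [hsh.continuousAt.eventually_ne hs1] with z hz
      show (s.f i (e.symm z) + t.f i (e.symm z)) / s.f i (e.symm z) = _
      rw [add_div, div_self hz]
    have h3 : dq s (sadd s t) i e (e x) = dq s t i e (e x) := by
      rw [dq, dq, hev.fderiv_eq, fderiv_const_add]
    rw [Om, h3] at h2
    exact h2
  · exact OmK_zero' k1 hw φ hk s t he hi hs ht

omit [IsManifold 𝓘(ℂ, Cm n) ω X] in
/-- the differential of a ratio vanishes on the kernel of `db`, if `φ = U db_1 ∧ … ∧ db_R` -/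
theorem ker_of_Om (s t : Sec L k) (φ : Mor L R) {i : L.ι} {e : Chart n X} {x : X}
    {U : Cm n → ℂ} {b : Cm n → Cm R} (hU0 : U (e x) ≠ 0)
    (hbs : Function.Surjective (fderiv ℂ b (e x)))
    (hnf : ∀ ξ : Fin R → Cm n,
      φ.form i e (e x) ξ = U (e x) * (Matrix.of fun i j => fderiv ℂ b (e x) (ξ j) i).det)
    (h0 : Om s t φ i e (e x) = 0) {ξ : Cm n} (hξ : fderiv ℂ b (e x) ξ = 0) :
    dq s t i e (e x) ξ = 0 := by
  choose E hE using fun a : Fin R => hbs (Pi.single a 1)
  have h1 := congrArg (fun A : (Cm n) [⋀^Fin (R + 1)]→ₗ[ℂ] ℂ => A (Fin.cons ξ E)) h0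
  simp only [Om, wd_apply, AlternatingMap.zero_apply] at h1
  rw [Fin.sum_univ_succ] at h1
  have h2 : φ.form i e (e x) (fun a => (Fin.cons ξ E : Fin (R + 1) → Cm n)
      ((0 : Fin (R + 1)).succAbove a)) = U (e x) := by
    rw [hnf]
    have : (Matrix.of fun (l : Fin R) (j : Fin R) => fderiv ℂ b (e x)
        ((Fin.cons ξ E : Fin (R + 1) → Cm n) ((0 : Fin (R + 1)).succAbove j)) l) =
        (1 : Matrix (Fin R) (Fin R) ℂ) := by
      ext l j
      rw [Matrix.of_apply, Fin.succAbove_zero, Fin.cons_succ, hE, Matrix.one_apply, Pi.single_apply]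
    rw [this, Matrix.det_one, mul_one]
  have h3 : ∀ j : Fin R, φ.form i e (e x) (fun a => (Fin.cons ξ E : Fin (R + 1) → Cm n)
      (j.succ.succAbove a)) = 0 := by
    intro j
    rw [hnf]
    have : NeZero R := ⟨by have := j.isLt; omega⟩
    have : (Matrix.of fun (l : Fin R) (j' : Fin R) => fderiv ℂ b (e x)
        ((Fin.cons ξ E : Fin (R + 1) → Cm n) (j.succ.succAbove j')) l).det = 0 := by
      refine Matrix.det_eq_zero_of_column_eq_zero 0 fun l => ?_
      rw [Matrix.of_apply]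
      have h4 : (j.succ.succAbove (0 : Fin R)) = 0 := by
        rw [Fin.succAbove_ne_zero_zero]
        exact Fin.succ_ne_zero j
      rw [h4, Fin.cons_zero, hξ]
      rfl
    rw [this, mul_zero]
  simp only [h3, mul_zero, Finset.sum_const_zero, add_zero, Fin.val_zero, pow_zero, one_mul,
    Fin.cons_zero] at h1
  rw [h2] at h1
  exact (mul_eq_zero.1 h1).resolve_right hU0

end Vale.Agent.P284.H279.K
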