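import Vale.Agent.P284.H279.K.Glob
import Vale.Agent.P272.K.AMP.Pole.Quad

/-!
# P284 (helper279), module K10: the weight `|s|²` of a section of a power of a line bundle
-/

open scoped Manifold ContDiff Topology ComplexOrder ComplexConjugate Matrix
open Filter Set MeasureTheory

noncomputable section

namespace Vale.Agent.P284.H279.K

open Vale.Agent.P272.K Vale.Agent.P272.K.INT Vale.Agent.P272.KOD Vale.Agent.P284.H206.Bog
  Vale.Agent.P284.H248

section lin
variable {n : ℕ}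

theorem pr_vv_pull (b : Fin n → ℂ) (J H : Matrix (Fin n) (Fin n) ℂ) :
    pr (Matrix.vecMulVec b (star b)) (Jᵀ * H * J.map (starRingEnd ℂ)) =
      pr (Matrix.vecMulVec (J *ᵥ b) (star (J *ᵥ b))) H := by
  have h := pr_change (A := Matrix.vecMulVec b (star b)) (J := J) (H' := H) (c := 1)
    (A' := Matrix.vecMulVec (J *ᵥ b) (star (J *ᵥ b)))
    (H := Jᵀ * H * J.map (starRingEnd ℂ)) ?_ rfl
  · rw [h, one_mul]
  · rw [one_smul, Matrix.mul_vecMulVec, Matrix.vecMulVec_mul, Matrix.star_mulVec]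

theorem pr_vv_eq_qf (b : Fin n → ℂ) (H : Matrix (Fin n) (Fin n) ℂ) :
    (pr (Matrix.vecMulVec b (star b)) H).re = (∑ j, ∑ k, H j k * b j * conj (b k)).re := by
  congr 1
  unfold pr
  refine Finset.sum_congr rfl fun j _ => Finset.sum_congr rfl fun k _ => ?_
  simp only [Matrix.vecMulVec_apply, Pi.star_apply, RCLike.star_def]
  ring

theorem pr_vv_le (b : Fin n → ℂ) (H : Matrix (Fin n) (Fin n) ℂ) :
    |(pr (Matrix.vecMulVec b (star b)) H).re| ≤ (∑ j, ∑ k, ‖H j k‖) * ‖b‖ ^ 2 := by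
  refine (Complex.abs_re_le_norm _).trans ?_
  unfold pr
  rw [Finset.sum_mul]
  refine (norm_sum_le _ _).trans (Finset.sum_le_sum fun j _ => ?_)
  rw [Finset.sum_mul]
  refine (norm_sum_le _ _).trans (Finset.sum_le_sum fun k _ => ?_)
  simp only [Matrix.vecMulVec_apply, Pi.star_apply, norm_mul, norm_star]
  have h1 := norm_le_pi_norm b j
  have h2 := norm_le_pi_norm b k
  calc ‖b j‖ * ‖b k‖ * ‖H j k‖ ≤ ‖b‖ * ‖b‖ * ‖H j k‖ := by gcongr
    _ = _ := by ring

/-- local comparison of Hermitian forms -/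
theorem loc_bd {H W : Cm n → Matrix (Fin n) (Fin n) ℂ} {z : Cm n}
    (hH : ∀ j k, ContinuousAt (fun y => H y j k) z) (hW : ∀ j k, ContinuousAt (fun y => W y j k) z)
    (hp : (W z).PosDef) : ∃ B : ℝ, 0 ≤ B ∧ ∀ᶠ y in 𝓝 z, ∀ b : Fin n → ℂ,
      |(pr (Matrix.vecMulVec b (star b)) (H y)).re| ≤
        B * (pr (Matrix.vecMulVec b (star b)) (W y)).re := by
  obtain ⟨c, hc, hcb⟩ := AMP.Pole.exists_qf_ge hp
  set D : Cm n → ℝ := fun y => ∑ j, ∑ k, ‖H y j k‖ with hD
  have hDc : ContinuousAt D z := tendsto_finsetSum _ fun j _ => tendsto_finsetSum _ fun k _ =>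
    (hH j k).norm
  set F : Cm n → ℝ := fun y => ∑ j, ∑ k, ‖W y j k - W z j k‖ with hF
  have hFc : ContinuousAt F z := tendsto_finsetSum _ fun j _ => tendsto_finsetSum _ fun k _ =>
    ((hW j k).sub continuousAt_const).norm
  have hF0 : F z = 0 := by simp [hF]
  have hD0 : ∀ y, 0 ≤ D y := fun y => Finset.sum_nonneg fun j _ => Finset.sum_nonneg fun k _ =>
    norm_nonneg _
  refine ⟨(D z + 1) * (2 / c), mul_nonneg (by linarith [hD0 z]) (by positivity), ?_⟩
  filter_upwards [hDc.eventually_lt continuousAt_const (show D z < D z + 1 by linarith),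
    hFc.eventually_lt continuousAt_const (show F z < c / 2 by rw [hF0]; positivity)]
    with y h1 h2 b
  have h3 := pr_vv_le b (H y)
  have h4 : c / 2 * ‖b‖ ^ 2 ≤ (pr (Matrix.vecMulVec b (star b)) (W y)).re := by
    have h5 : c * ‖b‖ ^ 2 ≤ (pr (Matrix.vecMulVec b (star b)) (W z)).re := by
      rw [pr_vv_eq_qf]; exact hcb b
    have h6 := pr_vv_le b (W y - W z)
    have h7 : pr (Matrix.vecMulVec b (star b)) (W y) =
        pr (Matrix.vecMulVec b (star b)) (W z) + pr (Matrix.vecMulVec b (star b)) (W y - W z) := by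
      rw [← pr_add, add_sub_cancel]
    rw [h7, Complex.add_re]
    have h8 := (abs_le.1 h6).1
    have h9 : (∑ j, ∑ k, ‖(W y - W z) j k‖) = F y := rfl
    rw [h9] at h8
    have h10 : F y * ‖b‖ ^ 2 ≤ c / 2 * ‖b‖ ^ 2 :=
      mul_le_mul_of_nonneg_right h2.le (sq_nonneg _)
    linarith
  refine h3.trans ?_
  calc D y * ‖b‖ ^ 2 ≤ (D z + 1) * ‖b‖ ^ 2 := mul_le_mul_of_nonneg_right h1.le (sq_nonneg _)
    _ = (D z + 1) * (2 / c) * (c / 2 * ‖b‖ ^ 2) := by field_simp
    _ ≤ _ := mul_le_mul_of_nonneg_left h4 (mul_nonneg (by linarith [hD0 z]) (by positivity))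

end lin

variable {n : ℕ} {X : Type} [TopologicalSpace X] [ChartedSpace (Cm n) X]
  [IsManifold 𝓘(ℂ, Cm n) ω X] {w : Chart n X → Cm n → Matrix (Fin n) (Fin n) ℂ}

theorem cHess_chg {u : X → ℝ} {e e' : Chart n X} {x : X} (h : At e x) (h' : At e' x)
    (hu : ContDiffAt ℝ 2 (fun z => u (e'.symm z)) (e' x)) :
    cHess (fun y => u (e.symm y)) (e x) = (jacM e e' x)ᵀ * cHess (fun y => u (e'.symm y)) (e' x) *
      (jacM e e' x).map (starRingEnd ℂ) := by
  have h1 : (fun y => u (e.symm y)) =ᶠ[𝓝 (e x)] fun y => u (e'.symm (e' (e.symm y))) := by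
    filter_upwards [h.nhds_at h'] with z hz
    rw [hz.2.2.left_inv]
  have h2 : e' (e.symm (e x)) = e' x := by rw [h.left_inv]
  rw [cHess_congr h1]
  have := cHess_comp (τ := fun z => e' (e.symm z)) (f := fun y => u (e'.symm y)) (z := e x)
    (by rw [h2]; exact hu) (transition h h')
  rw [h2] at this
  exact this

/-- the bound does not depend on the chart -/
theorem bd_chg (hw : IsKahler w) {u : X → ℝ} {e e' : Chart n X} {x : X} (h : At e x)
    (h' : At e' x) (hu : ContDiffAt ℝ 2 (fun z => u (e'.symm z)) (e' x)) {B : ℝ}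
    (hb : ∀ b : Fin n → ℂ,
      |(pr (Matrix.vecMulVec b (star b)) (cHess (fun y => u (e'.symm y)) (e' x))).re| ≤
      B * (pr (Matrix.vecMulVec b (star b)) (w e' (e' x))).re) (b : Fin n → ℂ) :
    |(pr (Matrix.vecMulVec b (star b)) (cHess (fun y => u (e.symm y)) (e x))).re| ≤
      B * (pr (Matrix.vecMulVec b (star b)) (w e (e x))).re := by
  rw [cHess_chg h h' hu, hw.change e e' x h h', pr_vv_pull, pr_vv_pull]
  exact hb _

/-- a finite partition of unity subordinate to an open cover -/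
theorem exists_pou [T2Space X] [CompactSpace X] {ι : Type} (U : ι → Set X)
    (hU : ∀ i, IsOpen (U i)) (hc : ∀ x, ∃ i, x ∈ U i) :
    ∃ (N : ℕ) (i : Fin N → ι) (ρ : Fin N → X → ℝ), (∀ a, SmoothFn (n := n) (ρ a)) ∧
      (∀ a x, 0 ≤ ρ a x) ∧ (∀ a, tsupport (ρ a) ⊆ U (i a)) ∧ ∀ x, ∑ a, ρ a x = 1 := by
  have := isManifold_real n X
  choose j hj using hc
  obtain ⟨t, ht⟩ := isCompact_univ.elim_finite_subcover
    (fun x : X => U (j x)) (fun x => hU (j x)) (fun x _ => mem_iUnion.2 ⟨x, hj x⟩)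
  let N := t.card
  let c : Fin N → X := fun i => (t.equivFin.symm i : X)
  have hc : (univ : Set X) ⊆ ⋃ i, U (j (c i)) := by
    intro x hx
    obtain ⟨y, hy⟩ := mem_iUnion.1 (ht hx)
    obtain ⟨hyt, hxy⟩ := mem_iUnion.1 hy
    exact mem_iUnion.2 ⟨t.equivFin ⟨y, hyt⟩, by simpa [c] using hxy⟩
  obtain ⟨f, hf⟩ := SmoothPartitionOfUnity.exists_isSubordinate 𝓘(ℝ, Cm n)
    isClosed_univ (fun i => U (j (c i))) (fun i => hU _) hc
  refine ⟨N, fun a => j (c a), fun a => f a, fun a => smoothFn_of_contMDiff (f a).contMDiff,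
    fun a x => f.nonneg a x, fun a => hf a, fun x => ?_⟩
  have := f.sum_eq_one (mem_univ x)
  rwa [finsum_eq_sum_of_fintype] at this

variable {L : LineBundle n X} {k : ℕ}

omit [IsManifold 𝓘(ℂ, Cm n) ω X] in
theorem ev_U {c : Chart n X} {z : X} (hz : At c z) {U : Set X} (hU : IsOpen U) (hi : z ∈ U) :
    ∀ᶠ ζ in 𝓝 (c z), ζ ∈ c.target ∧ At c (c.symm ζ) ∧ c.symm ζ ∈ U := by
  filter_upwards [hz.nhds_at hz, ev_symm hz (hU.mem_nhds hi)] with ζ h h'
  exact ⟨h.1, h.2.1, h'⟩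

/-- the weight of a section -/
theorem exists_wt [T2Space X] [CompactSpace X] (hw : IsKahler w) (s : Sec L k) :
    ∃ (G : X → ℝ) (B : ℝ), Wt w G B ∧ ∀ x i, x ∈ L.U i → (G x = 0 ↔ s.f i x = 0) := by
  obtain ⟨N, i, ρ, hρs, hρ0, hρt, hρ1⟩ := exists_pou (n := n) L.U L.isOpen L.cover
  set G : X → ℝ := fun x => ∑ a, ρ a x * ‖s.f (i a) x‖ ^ 2 with hG
  -- the local weights
  set h : L.ι → X → ℝ := fun j x => ∑ a, ρ a x * ‖L.g (i a) j x ^ k‖ ^ 2 with hh
  have hGh : ∀ x j, x ∈ L.U j → G x = ‖s.f j x‖ ^ 2 * h j x := by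
    intro x j hj
    rw [hG, hh]
    simp only
    rw [Finset.mul_sum]
    refine Finset.sum_congr rfl fun a _ => ?_
    by_cases ha : x ∈ L.U (i a)
    · rw [s.change (i a) j x ha hj, norm_mul, mul_pow]
      ring
    · have : ρ a x = 0 := by
        by_contra h
        exact ha (hρt a (subset_tsupport _ h))
      rw [this]; ring
  have hhpos : ∀ x j, x ∈ L.U j → 0 < h j x := by
    intro x j hj
    have h0 : ∀ a ∈ Finset.univ, 0 ≤ ρ a x * ‖L.g (i a) j x ^ k‖ ^ 2 := fun a _ =>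
      mul_nonneg (hρ0 a x) (sq_nonneg _)
    obtain ⟨a, ha⟩ : ∃ a, ρ a x ≠ 0 := by
      by_contra hcon
      push Not at hcon
      have := hρ1 x
      simp only [hcon, Finset.sum_const_zero] at this
      exact zero_ne_one this
    have hxa : x ∈ L.U (i a) := hρt a (subset_tsupport _ ha)
    have hne := L.ne_zero (i a) j x hxa hj
    refine lt_of_lt_of_le ?_ (Finset.single_le_sum h0 (Finset.mem_univ a))
    have h3 : 0 < ρ a x := lt_of_le_of_ne (hρ0 a x) (Ne.symm ha)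
    exact mul_pos h3 (pow_pos (norm_pos_iff.2 (pow_ne_zero _ hne)) _)
  -- smoothness of the terms
  have hterm : ∀ (a : Fin N) (F : X → ℂ), (∀ (e : Chart n X) x, At e x → x ∈ L.U (i a) →
      ContDiffAt ℂ ω (fun z => F (e.symm z)) (e x)) → SmoothFn (n := n) fun x => ρ a x * ‖F x‖ ^ 2 := by
    intro a F hF e x hx
    by_cases hxa : x ∈ tsupport (ρ a)
    · have h1 := hF e x hx (hρt a hxa)
      have h2 : ContDiffAt ℝ ∞ (fun z => F (e.symm z)) (e x) :=
        (h1.restrict_scalars ℝ).of_le (by exact le_top)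
      exact (hρs a e x hx).mul (h2.norm_sq ℝ)
    · have h1 : ∀ᶠ y in 𝓝 x, y ∉ tsupport (ρ a) := (isClosed_tsupport _).isOpen_compl.mem_nhds hxa
      have h2 : (fun z => ρ a (e.symm z) * ‖F (e.symm z)‖ ^ 2) =ᶠ[𝓝 (e x)] fun _ => 0 := by
        filter_upwards [ev_symm hx h1] with z hz
        rw [image_eq_zero_of_notMem_tsupport hz, zero_mul]
      exact contDiffAt_const.congr_of_eventuallyEq h2
  have hGs : SmoothFn (n := n) G := SmoothFn.sum _ fun a _ => hterm a (s.f (i a)) fun e x hx hxa =>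
    s.holo (i a) e x hx hxa
  have hhs : ∀ j (e : Chart n X) x, At e x → x ∈ L.U j →
      ContDiffAt ℝ ∞ (fun z => h j (e.symm z)) (e x) := by
    intro j e x hx hj
    refine ContDiffAt.sum fun a _ => ?_
    by_cases hxa : x ∈ tsupport (ρ a)
    · have h1 := (L.holo (i a) j e x hx (hρt a hxa) hj).pow k
      have h2 : ContDiffAt ℝ ∞ (fun z => L.g (i a) j (e.symm z) ^ k) (e x) :=
        (h1.restrict_scalars ℝ).of_le (by exact le_top)
      exact (hρs a e x hx).mul (h2.norm_sq ℝ)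
    · have h1 : ∀ᶠ y in 𝓝 x, y ∉ tsupport (ρ a) := (isClosed_tsupport _).isOpen_compl.mem_nhds hxa
      have h2 : (fun z => ρ a (e.symm z) * ‖L.g (i a) j (e.symm z) ^ k‖ ^ 2) =ᶠ[𝓝 (e x)]
          fun _ => 0 := by
        filter_upwards [ev_symm hx h1] with z hz
        rw [image_eq_zero_of_notMem_tsupport hz, zero_mul]
      exact contDiffAt_const.congr_of_eventuallyEq h2
  have hlh : ∀ j (e : Chart n X) x, At e x → x ∈ L.U j →
      ContDiffAt ℝ ∞ (fun z => Real.log (h j (e.symm z))) (e x) := by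
    intro j e x hx hj
    refine (hhs j e x hx hj).log ?_
    rw [hx.left_inv]
    exact (hhpos x j hj).ne'
  -- the Hessian of `log G`
  have hHess : ∀ j (e : Chart n X) x, At e x → x ∈ L.U j → G x ≠ 0 →
      cHess (fun y => Real.log (G (e.symm y))) (e x) =
        cHess (fun y => Real.log (h j (e.symm y))) (e x) := by
    intro j e x hx hj hG0
    have hs0 : s.f j x ≠ 0 := by
      intro h0
      rw [hGh x j hj, h0] at hG0
      simp at hG0
    have hsc : ContDiffAt ℂ ω (fun z => s.f j (e.symm z)) (e x) := s.holo j e x hx hj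
    have hs0' : s.f j (e.symm (e x)) ≠ 0 := by rwa [hx.left_inv]
    have e1 : (fun y => Real.log (G (e.symm y))) =ᶠ[𝓝 (e x)]
        fun y => Real.log (‖s.f j (e.symm y)‖ ^ 2) + Real.log (h j (e.symm y)) := by
      filter_upwards [ev_U hx (L.isOpen j) hj, hsc.continuousAt.eventually_ne hs0'] with y hy hy0
      rw [hGh _ j hy.2.2, Real.log_mul (by positivity) (hhpos _ j hy.2.2).ne']
    have h2 : ContDiffAt ℝ 2 (fun z => Real.log (‖s.f j (e.symm z)‖ ^ 2)) (e x) := by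
      have h3 : ContDiffAt ℝ 2 (fun z => s.f j (e.symm z)) (e x) :=
        (hsc.restrict_scalars ℝ).of_le (by exact le_top)
      exact (h3.norm_sq ℝ).log (by positivity)
    rw [C2.cHess_congr e1, C2.cHess_add h2 ((hlh j e x hx hj).of_le two_le_inf),
      cHess_log_norm_sq hsc hs0', zero_add]
  -- local bounds
  have hloc : ∀ x : X, ∃ B : ℝ, 0 ≤ B ∧ ∀ᶠ y in 𝓝 x, G y ≠ 0 → ∀ (e : Chart n X), At e y →
      ∀ b : Fin n → ℂ,
      |(pr (Matrix.vecMulVec b (star b)) (cHess (fun y => Real.log (G (e.symm y))) (e y))).re| ≤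
      B * (pr (Matrix.vecMulVec b (star b)) (w e (e y))).re := by
    intro x
    obtain ⟨j, hj⟩ := L.cover x
    set e₀ := chartAt (Cm n) x with he₀
    have hx : At e₀ x := ⟨chart_mem_atlas _ _, mem_chart_source _ _⟩
    obtain ⟨B, hB, hBb⟩ := loc_bd (H := fun z => cHess (fun y => Real.log (h j (e₀.symm y))) z)
      (W := fun z => w e₀ z) (z := e₀ x)
      (fun a b => (INT.smooth_cHess (hlh j e₀ x hx hj) a b).continuousAt)
      (fun a b => (hw.smooth e₀ x hx a b).continuousAt) (hw.posDef e₀ x hx)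
    refine ⟨B, hB, ?_⟩
    have h1 := (e₀.continuousAt hx.2).eventually hBb
    filter_upwards [h1, e₀.open_source.mem_nhds hx.2, (L.isOpen j).mem_nhds hj]
      with y hy1 hy2 hy3 hG0 e he b
    have hy : At e₀ y := ⟨hx.1, hy2⟩
    refine bd_chg hw (u := fun y => Real.log (G y)) he hy
      ((log_contDiffAt hGs hy hG0).of_le two_le_inf) (fun b => ?_) b
    rw [hHess j e₀ y hy hy3 hG0]
    exact hy1 b
  choose B hB0 hB using hloc
  obtain ⟨t, ht⟩ := isCompact_univ.elim_nhds_subcover' (fun x _ => {y | G y ≠ 0 →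
      ∀ (e : Chart n X), At e y → ∀ b : Fin n → ℂ,
      |(pr (Matrix.vecMulVec b (star b)) (cHess (fun y => Real.log (G (e.symm y))) (e y))).re| ≤
      B x * (pr (Matrix.vecMulVec b (star b)) (w e (e y))).re}) (fun x _ => hB x)
  refine ⟨G, ∑ x ∈ t, B x, ⟨hGs, fun x => Finset.sum_nonneg fun a _ =>
    mul_nonneg (hρ0 a x) (sq_nonneg _), Finset.sum_nonneg fun x _ => hB0 _, ?_⟩, ?_⟩
  · intro e y hy hG0 b
    obtain ⟨x, hxt, hx⟩ := mem_iUnion₂.1 (ht (mem_univ y))
    refine (hx hG0 e hy b).trans ?_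
    refine mul_le_mul_of_nonneg_right ?_ (pr_vg_nonneg _ (hw.posDef e y hy))
    exact Finset.single_le_sum (f := fun x : (univ : Set X) => B x) (fun x _ => hB0 _) hxt
  · intro x j hj
    rw [hGh x j hj, mul_eq_zero, or_iff_left (hhpos x j hj).ne', sq_eq_zero_iff, norm_eq_zero]

end Vale.Agent.P284.H279.K
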