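import Vale.Agent.P284.H279.K.Af
import Vale.Agent.P284.H279.K.WtL

/-!
# P284 (helper279), module K10: the form `A ∧ Ā ∧ w^{n-R-1}`
-/

open scoped ContDiff Topology ComplexConjugate ComplexOrder Matrix
open Filter Set

noncomputable section

namespace Vale.Agent.P284.H279.K

open Vale.Agent.P272.K Vale.Agent.P284.H608.K Vale.Agent.P284.H206.Bog

variable {n p P : ℕ}

/-! ### sesquilinearity of `hn` -/

theorem ev_sum_smul {ι : Type*} (S : Finset ι) (c : ι → ℂ) (A : ι → Af n p) (s : Fin p → Fin n) :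
    ev (∑ i ∈ S, c i • A i) s = ∑ i ∈ S, c i * ev (A i) s := by
  have h : ev (∑ i ∈ S, c i • A i) s = cmp n p (∑ i ∈ S, c i • A i) s := rfl
  rw [h, map_sum, Finset.sum_apply]
  exact Finset.sum_congr rfl fun i _ => by rw [map_smul]; rfl

theorem hn_add_left (w : Matrix (Fin n) (Fin n) ℂ) (A A' B : Af n p) :
    hn w (A + A') B = hn w A B + hn w A' B := by
  simp only [hn, ev_add, add_mul, Finset.sum_add_distrib, mul_add]

theorem hn_smul_left (w : Matrix (Fin n) (Fin n) ℂ) (c : ℂ) (A B : Af n p) :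
    hn w (c • A) B = c * hn w A B := by
  simp only [hn, ev_smul, Finset.mul_sum]
  exact Finset.sum_congr rfl fun s _ => Finset.sum_congr rfl fun t _ => by ring

theorem hn_add_right (w : Matrix (Fin n) (Fin n) ℂ) (A B B' : Af n p) :
    hn w A (B + B') = hn w A B + hn w A B' := by
  simp only [hn, ev_add, map_add, mul_add, add_mul, Finset.sum_add_distrib]

theorem hn_smul_right (w : Matrix (Fin n) (Fin n) ℂ) (c : ℂ) (A B : Af n p) :
    hn w A (c • B) = conj c * hn w A B := by
  simp only [hn, ev_smul, map_mul, Finset.mul_sum]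
  exact Finset.sum_congr rfl fun s _ => Finset.sum_congr rfl fun t _ => by ring

theorem hn_sum_left (w : Matrix (Fin n) (Fin n) ℂ) {ι : Type*} (S : Finset ι) (c : ι → ℂ)
    (A : ι → Af n p) (B : Af n p) :
    hn w (∑ i ∈ S, c i • A i) B = ∑ i ∈ S, c i * hn w (A i) B := by
  classical
  induction S using Finset.induction_on with
  | empty => simpa using hn_zero_left w B
  | insert a S ha ih => rw [Finset.sum_insert ha, Finset.sum_insert ha, hn_add_left,
      hn_smul_left, ih]

theorem hn_sum_right (w : Matrix (Fin n) (Fin n) ℂ) {ι : Type*} (S : Finset ι) (c : ι → ℂ)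
    (A : Af n p) (B : ι → Af n p) :
    hn w A (∑ i ∈ S, c i • B i) = ∑ i ∈ S, conj (c i) * hn w A (B i) := by
  classical
  induction S using Finset.induction_on with
  | empty => simpa using hn_zero_right w A
  | insert a S ha ih => rw [Finset.sum_insert ha, Finset.sum_insert ha, hn_add_right,
      hn_smul_right, ih]

theorem hn_sum_sum (w : Matrix (Fin n) (Fin n) ℂ) {ι : Type*} (S : Finset ι) (c d : ι → ℂ)
    (A B : ι → Af n p) :
    hn w (∑ i ∈ S, c i • A i) (∑ j ∈ S, d j • B j) =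
      ∑ i ∈ S, ∑ j ∈ S, c i * conj (d j) * hn w (A i) (B j) := by
  rw [hn_sum_left]
  refine Finset.sum_congr rfl fun i _ => ?_
  rw [hn_sum_right, Finset.mul_sum]
  exact Finset.sum_congr rfl fun j _ => by ring

theorem hn_nonneg (k1 : K1Stmt) {w : Matrix (Fin n) (Fin n) ℂ} (hw : w.PosDef) (A : Af n p) :
    0 ≤ hn w A A := by
  by_cases h : A = 0
  · rw [h, hn_zero_left]
  · exact (k1.pos n p w hw A h).le

/-! ### the matrix -/

/-- the coefficient matrix of `A ∧ Ā ∧ w^{n-P-1}` -/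
def QA (hp : P + 1 ≤ n) (w : Matrix (Fin n) (Fin n) ℂ) (A : Af n P) : Matrix (Fin n) (Fin n) ℂ :=
  Matrix.of fun c d => Qp hp w fun s t =>
    ((if s 0 = c then 1 else 0) * (if t 0 = d then 1 else 0)) *
      (ev A (fun i => s i.succ) * conj (ev A (fun i => t i.succ)))

theorem QA_def (hp : P + 1 ≤ n) (w : Matrix (Fin n) (Fin n) ℂ) (A : Af n P) (c d : Fin n) :
    QA hp w A c d = Qp hp w fun s t =>
    ((if s 0 = c then 1 else 0) * (if t 0 = d then 1 else 0)) *
      (ev A (fun i => s i.succ) * conj (ev A (fun i => t i.succ))) := by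
  rw [QA, Matrix.of_apply]

/-- the constant -/
def c0 (n P : ℕ) : ℂ := (P.factorial : ℂ) ^ 2 * (n - P - 1).factorial

theorem c0_pos (n P : ℕ) : 0 < c0 n P := by
  unfold c0
  have h1 : (0 : ℂ) < (P.factorial : ℂ) := by exact_mod_cast P.factorial_pos
  have h2 : (0 : ℂ) < ((n - P - 1).factorial : ℂ) := by exact_mod_cast (n - P - 1).factorial_pos
  positivity

theorem QA_apply (k1 : K1Stmt) (hp : P + 1 ≤ n) {w : Matrix (Fin n) (Fin n) ℂ} (hw : w.PosDef)
    (A : Af n P) (c d : Fin n) :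
    QA hp w A c d = c0 n P * w.det * hn w (wdz c A) (wdz d A) := by
  have h := Qp_beta k1 hp hw (Matrix.single c d 1) A A
  have e1 : (fun (s t : Fin (P + 1) → Fin n) => Matrix.single c d (1 : ℂ) (s 0) (t 0) *
      (ev A (fun i => s i.succ) * conj (ev A (fun i => t i.succ)))) = fun s t =>
    ((if s 0 = c then 1 else 0) * (if t 0 = d then 1 else 0)) *
      (ev A (fun i => s i.succ) * conj (ev A (fun i => t i.succ))) := by
    funext s t
    congr 1
    rw [Matrix.single_apply]
    by_cases h1 : s 0 = c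
    · by_cases h2 : t 0 = d
      · simp [h1, h2]
      · simp [h2, Ne.symm h2]
    · simp [h1, Ne.symm h1]
  rw [e1] at h
  have e2 : ∑ c', ∑ d', Matrix.single c d (1 : ℂ) c' d' * hn w (wdz c' A) (wdz d' A) =
      hn w (wdz c A) (wdz d A) := by
    rw [Finset.sum_eq_single c, Finset.sum_eq_single d]
    · simp
    · intro d' _ hd
      rw [Matrix.single_apply_of_col_ne _ _ hd.symm, zero_mul]
    · intro h; exact absurd (Finset.mem_univ _) h
    · intro c' _ hc
      refine Finset.sum_eq_zero fun d' _ => ?_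
      rw [Matrix.single_apply_of_row_ne hc.symm, zero_mul]
    · intro h; exact absurd (Finset.mem_univ _) h
  rw [e2] at h
  exact h

theorem QA_psd (k1 : K1Stmt) (hp : P + 1 ≤ n) {w : Matrix (Fin n) (Fin n) ℂ} (hw : w.PosDef)
    (A : Af n P) : (QA hp w A).PosSemidef := by
  have hdet : (0 : ℂ) < w.det := hw.det_pos
  have hc := c0_pos n P
  have hreal : ∀ {x : ℂ}, 0 < x → conj x = x := fun {x} hx =>
    Complex.conj_eq_iff_im.2 (Complex.pos_iff.1 hx).2.symm
  refine Matrix.PosSemidef.of_dotProduct_mulVec_nonneg ?_ fun ξ => ?_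
  · ext c d
    rw [Matrix.conjTranspose_apply, QA_apply k1 hp hw, QA_apply k1 hp hw, RCLike.star_def, map_mul,
      map_mul, hreal hc, hreal hdet, ← k1.conj_symm n (P + 1) w hw]
  · have e1 : star ξ ⬝ᵥ (QA hp w A *ᵥ ξ) = c0 n P * w.det *
        hn w (∑ c, star (ξ c) • wdz c A) (∑ c, star (ξ c) • wdz c A) := by
      rw [hn_sum_sum]
      simp only [dotProduct, Matrix.mulVec, Finset.mul_sum, QA_apply k1 hp hw, Pi.star_apply,
        RCLike.star_def, Complex.conj_conj]
      exact Finset.sum_congr rfl fun c _ => Finset.sum_congr rfl fun d _ => by ring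
    rw [e1]
    exact mul_nonneg (mul_nonneg hc.le hdet.le) (hn_nonneg k1 hw _)

/-- the pull-back of `dz_p ∧ A` -/
theorem wdz_pull (L : Cm n →L[ℂ] Cm n) (A : Af n P) (q : Fin n) :
    (wdz q A).compContinuousLinearMap L =
      ∑ c, LinearMap.toMatrix' (L : Cm n →ₗ[ℂ] Cm n) q c • wdz c (A.compContinuousLinearMap L) := by
  have hL : ∀ v : Cm n, L v q = ∑ c, LinearMap.toMatrix' (L : Cm n →ₗ[ℂ] Cm n) q c * v c := by
    intro v
    have h := LinearMap.toMatrix'_mulVec (L : Cm n →ₗ[ℂ] Cm n) v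
    have h2 := congrFun h q
    rw [← ContinuousLinearMap.coe_coe, ← h2]
    rfl
  refine Af_ext fun s => ?_
  rw [ev_sum_smul]
  unfold ev wdz
  rw [ContinuousAlternatingMap.compContinuousLinearMap_apply,
    ContinuousAlternatingMap.alternatizeUncurryFin_apply]
  have e1 : ∀ c, ContinuousAlternatingMap.alternatizeUncurryFin
      ((ContinuousLinearMap.proj (R := ℂ) (φ := fun _ : Fin n => ℂ) c).smulRight
        (A.compContinuousLinearMap L)) (fun i => Pi.single (s i) 1) =
      ∑ i : Fin (P + 1), (-1) ^ (i : ℕ) • ((Pi.single (s i) 1 : Cm n) c *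
        A (L ∘ (i.removeNth fun i => (Pi.single (s i) 1 : Cm n)))) := by
    intro c
    rw [ContinuousAlternatingMap.alternatizeUncurryFin_apply]
    rfl
  simp only [e1, Finset.mul_sum]
  rw [Finset.sum_comm]
  refine Finset.sum_congr rfl fun i _ => ?_
  have e2 : ((ContinuousLinearMap.proj (R := ℂ) (φ := fun _ : Fin n => ℂ) q).smulRight A)
      ((L ∘ fun i => (Pi.single (s i) 1 : Cm n)) i)
      (i.removeNth (L ∘ fun i => (Pi.single (s i) 1 : Cm n))) =
      L (Pi.single (s i) 1) q * A (L ∘ (i.removeNth fun i => (Pi.single (s i) 1 : Cm n))) := rfl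
  rw [e2, hL]
  simp only [Finset.sum_mul, Finset.smul_sum]
  refine Finset.sum_congr rfl fun c _ => ?_
  simp only [zsmul_eq_mul]
  ring

theorem QA_change (k1 : K1Stmt) (hp : P + 1 ≤ n) {w' : Matrix (Fin n) (Fin n) ℂ} (hw' : w'.PosDef)
    (L : Cm n →L[ℂ] Cm n) (hL : Function.Bijective L) (A : Af n P)
    (hw : ((LinearMap.toMatrix' (L : Cm n →ₗ[ℂ] Cm n)).transpose * w' *
      (LinearMap.toMatrix' (L : Cm n →ₗ[ℂ] Cm n)).map (starRingEnd ℂ)).PosDef) :
    LinearMap.toMatrix' (L : Cm n →ₗ[ℂ] Cm n) *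
      QA hp ((LinearMap.toMatrix' (L : Cm n →ₗ[ℂ] Cm n)).transpose * w' *
      (LinearMap.toMatrix' (L : Cm n →ₗ[ℂ] Cm n)).map (starRingEnd ℂ))
      (A.compContinuousLinearMap L) * (LinearMap.toMatrix' (L : Cm n →ₗ[ℂ] Cm n))ᴴ =
    ((‖(LinearMap.toMatrix' (L : Cm n →ₗ[ℂ] Cm n)).det‖ ^ 2 : ℝ) : ℂ) • QA hp w' A := by
  set J := LinearMap.toMatrix' (L : Cm n →ₗ[ℂ] Cm n) with hJ
  ext p q
  have e1 : (J * QA hp (J.transpose * w' * J.map (starRingEnd ℂ)) (A.compContinuousLinearMap L) *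
      Jᴴ) p q = ∑ c, ∑ d, J p c * conj (J q d) *
        QA hp (J.transpose * w' * J.map (starRingEnd ℂ)) (A.compContinuousLinearMap L) c d := by
    simp only [Matrix.mul_apply, Finset.sum_mul, Matrix.conjTranspose_apply, RCLike.star_def]
    rw [Finset.sum_comm]
    exact Finset.sum_congr rfl fun c _ => Finset.sum_congr rfl fun d _ => by ring
  have hdet : (J.transpose * w' * J.map (starRingEnd ℂ)).det =
      ((‖J.det‖ ^ 2 : ℝ) : ℂ) * w'.det := by
    rw [Matrix.det_mul, Matrix.det_mul, Matrix.det_transpose]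
    have : (J.map (starRingEnd ℂ)).det = conj J.det := by
      rw [RingHom.map_det]; rfl
    rw [this, ← Complex.normSq_eq_norm_sq, ← Complex.mul_conj]
    ring
  have e2 : ∑ c, ∑ d, J p c * conj (J q d) *
        QA hp (J.transpose * w' * J.map (starRingEnd ℂ)) (A.compContinuousLinearMap L) c d =
      c0 n P * (J.transpose * w' * J.map (starRingEnd ℂ)).det *
        hn (J.transpose * w' * J.map (starRingEnd ℂ)) ((wdz p A).compContinuousLinearMap L)
          ((wdz q A).compContinuousLinearMap L) := by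
    rw [wdz_pull, wdz_pull, ← hJ, hn_sum_sum, Finset.mul_sum]
    refine Finset.sum_congr rfl fun c _ => ?_
    rw [Finset.mul_sum]
    refine Finset.sum_congr rfl fun d _ => ?_
    rw [QA_apply k1 hp hw]
    ring
  rw [e1, e2, hJ, k1.pull n (P + 1) w' L hw' hL, ← hJ, hdet, Matrix.smul_apply, smul_eq_mul,
    QA_apply k1 hp hw']
  ring

theorem QA_smul (hp : P + 1 ≤ n) (w : Matrix (Fin n) (Fin n) ℂ) (c : ℂ) (A : Af n P) :
    QA hp w (c • A) = ((‖c‖ ^ 2 : ℝ) : ℂ) • QA hp w A := by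
  ext a b
  rw [Matrix.smul_apply, smul_eq_mul, QA_def, QA_def, ← Qp_smul]
  congr 1
  funext s t
  rw [ev_smul, ev_smul, map_mul, ← Complex.normSq_eq_norm_sq, ← Complex.mul_conj]
  ring

/-- smoothness -/
theorem QA_smooth (hp : P + 1 ≤ n) {w : Cm n → Matrix (Fin n) (Fin n) ℂ} {z : Cm n}
    (hw : ∀ j k, ContDiffAt ℝ ∞ (fun y => w y j k) z) {A : Cm n → Af n P}
    (hA : ∀ s, ContDiffAt ℝ ∞ (fun y => ev (A y) s) z) (c d : Fin n) :
    ContDiffAt ℝ ∞ (fun y => QA hp (w y) (A y) c d) z := by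
  simp only [QA_def]
  unfold Qp
  refine ContDiffAt.sum fun σ _ => ContDiffAt.sum fun τ _ => ?_
  refine ContDiffAt.mul (contDiffAt_const.mul (contDiffAt_const.mul
    ((hA _).mul (C2.contDiffAt_conj (hA _))))) ?_
  exact contDiffAt_prod fun k _ => hw (σ k) (τ k)

end Vale.Agent.P284.H279.K
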